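import Vale.Agent.P092.H370.O.Z2

/-!
P092, TEAM P, [CLO-R3] (helper370): helper766's `Z3` for forms of every kind (`Fo`): AGR for all
adjacent pairs of singular subspaces, geometry.
-/

set_option linter.all false

open scoped InnerProductSpace
open Set Filter Topology Module ContinuousLinearMap

namespace Vale.Agent.P092.H370.O

open Vale.Agent.P092.H303 (FormGroup)
open Vale.Agent.P092.H370.Po hiding sing_sup_span exists_prod exists_inc_ge exists_above
  exists_extend exists_iso_prod trans_SGr con con2 trans_flag trans_pair_col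
open Vale.Agent.P092.H370.Fo (Fo Wf EU ort_symm sing_sup_span exists_prod exists_inc_ge
  exists_above exists_extend exists_iso_prod trans_SGr con con2 trans_flag trans_pair_col Opp
  trans_opp_fix EU_le)
open Vale.Agent.P092.H714.Cl
open Vale.Agent.P092.H714.Sg (Fm)
open Vale.Agent.P092.RC (Cm Moore PicX)

section geo

variable {n : Type} [Fintype n] [DecidableEq n] {k : Type} [Field k]
  {σ : k →+* k} {ε : k} {J : Matrix n n k}

/-- transitivity on the pairs with a common hyperplane which are not orthogonal -/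
theorem trans_ncol (hF : Fo σ ε J) {j : ℕ} {A B A' B' : SGr σ J (j + 1)} {C C' : SGr σ J j}
    (hA : Inc C A) (hB : Inc C B) (hA' : Inc C' A') (hB' : Inc C' B') (h : ¬ Col A B)
    (h' : ¬ Col A' B') : ∃ g : FormGroup σ J, g.1 ∈ EU σ ε J ∧ g • A = A' ∧ g • B = B' := by
  obtain ⟨g, hg, hC, hAA⟩ := trans_flag hF hA hA'
  set B₁ := g • B with hB₁
  have h1 : Inc C' B₁ := by rw [← hC]; exact (inc_smul g).2 hB
  have h2 : ¬ Col A' B₁ := by
    rw [← hAA]
    exact fun hc => h ((col_smul g).1 hc)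
  obtain ⟨a, ha, hae⟩ := exists_gen hA' C'.dim A'.dim
  obtain ⟨b, hb, hbe⟩ := exists_gen h1 C'.dim B₁.dim
  obtain ⟨b', hb', hbe'⟩ := exists_gen hB' C'.dim B'.dim
  have maA : a ∈ A'.S := by
    rw [hae]; exact (le_sup_right : Submodule.span k {a} ≤ _) (Submodule.mem_span_singleton_self a)
  have mbB : b ∈ B₁.S := by
    rw [hbe]; exact (le_sup_right : Submodule.span k {b} ≤ _) (Submodule.mem_span_singleton_self b)
  have mbB' : b' ∈ B'.S := by
    rw [hbe']
    exact (le_sup_right : Submodule.span k {b'} ≤ _) (Submodule.mem_span_singleton_self b')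
  have key : ∀ {D : SGr σ J (j + 1)} {d : n → k}, Inc C' D → D.S = C'.S ⊔ Submodule.span k {d} →
      ¬ Col A' D → hf σ J a d ≠ 0 := by
    intro D d hD he hn h0
    apply hn
    have hdD : d ∈ D.S := by
      rw [he]
      exact (le_sup_right : Submodule.span k {d} ≤ _) (Submodule.mem_span_singleton_self d)
    unfold Col
    rw [hae, he]
    refine ort_sup_left.2 ⟨ort_sup_right.2 ⟨C'.sing, fun x hx y hy => ?_⟩,
      ort_sup_right.2 ⟨fun x hx y hy => ?_, fun x hx y hy => ?_⟩⟩
    · refine D.sing x (hD hx) y ?_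
      rw [he]
      exact (le_sup_right : Submodule.span k {d} ≤ _) hy
    · refine A'.sing x ?_ y (hA' hy)
      rw [hae]
      exact (le_sup_right : Submodule.span k {a} ≤ _) hx
    · obtain ⟨s, rfl⟩ := Submodule.mem_span_singleton.1 hx
      obtain ⟨t, rfl⟩ := Submodule.mem_span_singleton.1 hy
      rw [hf_smul_left, hf_smul_right, h0, mul_zero, mul_zero]
  have nb := key h1 hbe h2
  have nb' := key hB' hbe' h'
  have a0 : a ≠ 0 := fun h0 => ha (by rw [h0]; exact zero_mem _)
  have b0 : b ≠ 0 := fun h0 => hb (by rw [h0]; exact zero_mem _)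
  have b0' : b' ≠ 0 := fun h0 => hb' (by rw [h0]; exact zero_mem _)
  have sub : ∀ {X : SGr σ J (j + 1)} {x : n → k}, x ∈ X.S → Sing σ J (Submodule.span k {x}) :=
    fun {X x} hx => X.sing.mono ((Submodule.span_singleton_le_iff_mem _ _).2 hx)
  have opp : ∀ {x y : n → k}, hf σ J x y ≠ 0 →
      Opp σ J (Submodule.span k {x}) (Submodule.span k {y}) := by
    intro x y hxy
    have h' := H370.Fo.Fm.symm_ne0 hF.fm hxy
    constructor
    · intro z hz hx
      obtain ⟨a, rfl⟩ := Submodule.mem_span_singleton.1 hz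
      have := hx x (Submodule.mem_span_singleton_self x)
      rw [hf_smul_right, mul_eq_zero, map_eq_zero] at this
      rw [this.resolve_right hxy, zero_smul]
    · intro z hz hx
      obtain ⟨a, rfl⟩ := Submodule.mem_span_singleton.1 hz
      have := hx y (Submodule.mem_span_singleton_self y)
      rw [hf_smul_right, mul_eq_zero, map_eq_zero] at this
      rw [this.resolve_right h', zero_smul]
  obtain ⟨g', hg', e1, e2, e3⟩ := trans_opp_fix hF.fm (sub maA) (sub mbB) (sub mbB') (opp nb)
    (opp nb') (by rw [finrank_span_singleton a0, finrank_span_singleton b0])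
    (by rw [finrank_span_singleton a0, finrank_span_singleton b0'])
  have hgF := EU_le hF.fm hg'
  have hCfix : ∀ x ∈ C'.S, Matrix.vecMul x g'.1 = x := by
    intro x hx
    refine e3 x (fun y hy => ?_) (fun y hy => ?_) fun y hy => ?_
    · obtain ⟨t, rfl⟩ := Submodule.mem_span_singleton.1 hy
      exact A'.sing x (hA' hx) _ (A'.S.smul_mem t maA)
    · obtain ⟨t, rfl⟩ := Submodule.mem_span_singleton.1 hy
      exact B₁.sing x (h1 hx) _ (B₁.S.smul_mem t mbB)
    · obtain ⟨t, rfl⟩ := Submodule.mem_span_singleton.1 hy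
      exact B'.sing x (hB' hx) _ (B'.S.smul_mem t mbB')
  have actC : act g' C'.S = C'.S := act_of_fix hCfix
  refine ⟨(⟨g', hgF⟩ : FormGroup σ J)⁻¹ * g, mul_mem (inv_mem hg') hg, ?_, ?_⟩
  · rw [mul_smul, hAA, inv_smul_eq_iff]
    refine SGr.ext ?_
    rw [smul_S]
    change A'.S = act g'⁻¹ A'.S
    have e4 : act g' A'.S = A'.S := by
      rw [hae, act_sup, actC]
      congr 1
      exact act_of_fix e2
    exact (act_inv_act g' A'.S).symm.trans (congrArg (act g'⁻¹) e4)
  · rw [mul_smul, ← hB₁, inv_smul_eq_iff]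
    refine SGr.ext ?_
    rw [smul_S]
    change B₁.S = act g'⁻¹ B'.S
    have e4 : act g' B₁.S = B'.S := by
      rw [hbe, act_sup, actC, e1, hbe']
    exact (act_inv_act g' B₁.S).symm.trans (congrArg (act g'⁻¹) e4)

/-- a third subspace which is orthogonal to neither of two adjacent ones -/
theorem exists_third (hF : Fo σ ε J) {j : ℕ} {A B : SGr σ J (j + 1)} {C : SGr σ J j}
    (hA : Inc C A) (hB : Inc C B) (hc : Col A B) :
    ∃ D : SGr σ J (j + 1), Inc C D ∧ ¬ Col A D ∧ ¬ Col D B := by
  obtain ⟨a, ha, hae⟩ := exists_gen hA C.dim A.dim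
  obtain ⟨b, hb, hbe⟩ := exists_gen hB C.dim B.dim
  have maA : a ∈ A.S := by
    rw [hae]; exact (le_sup_right : Submodule.span k {a} ≤ _) (Submodule.mem_span_singleton_self a)
  have mbB : b ∈ B.S := by
    rw [hbe]; exact (le_sup_right : Submodule.span k {b} ≤ _) (Submodule.mem_span_singleton_self b)
  have hs : Sing σ J (A.S ⊔ B.S) :=
    ort_sup_left.2 ⟨ort_sup_right.2 ⟨A.sing, hc⟩, ort_sup_right.2 ⟨ort_symm hF hc, B.sing⟩⟩
  obtain ⟨φ, h1, h2, h3⟩ := exists_functional₂ (X := A.S ⊔ B.S) (Z := C.S)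
    (le_trans hA le_sup_left) (le_sup_left (a := A.S) (b := B.S) maA)
    (le_sup_right (a := A.S) (b := B.S) mbB) ha hb
  obtain ⟨z, hz, hzφ⟩ := exists_iso_prod hF hs φ (fun h0 => h1 (by rw [h0]; rfl))
  have hCz : ∀ x ∈ C.S, hf σ J x z = 0 := fun x hx => by
    rw [hzφ ⟨x, le_sup_left (a := A.S) (b := B.S) (hA hx)⟩]
    exact h3 _ hx
  have haz : hf σ J a z ≠ 0 := by
    rw [hzφ ⟨a, le_sup_left (a := A.S) (b := B.S) maA⟩]
    exact h1
  have hbz : hf σ J b z ≠ 0 := by
    rw [hzφ ⟨b, le_sup_right (a := A.S) (b := B.S) mbB⟩]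
    exact h2
  have hzC : z ∉ C.S := fun h => haz (A.sing a maA z (hA h))
  have mz : z ∈ C.S ⊔ Submodule.span k {z} :=
    (le_sup_right : Submodule.span k {z} ≤ _) (Submodule.mem_span_singleton_self z)
  refine ⟨SGr.mk' (C.S ⊔ Submodule.span k {z}) (sing_sup_span hF C.sing hz hCz)
    (by rw [finrank_sup_span hzC, C.dim]), le_sup_left, fun h => haz (h a maA z mz),
    fun h => hbz (hF.fm.symm0 (h z mz b mbB))⟩

/-- connectedness for non orthogonal steps -/
theorem con_ncol (hF : Fo σ ε J) {j : ℕ} (P P' : SGr σ J (j + 1)) :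
    Relation.ReflTransGen (fun A B : SGr σ J (j + 1) => ¬ Col A B ∧
      ∃ X : SGr σ J j, Inc X A ∧ Inc X B) P P' := by
  have h := con2 hF P P'
  induction h with
  | refl => exact Relation.ReflTransGen.refl
  | @tail B D _ h ih =>
    refine ih.trans ?_
    obtain ⟨X, h1, h2⟩ := h
    by_cases hc : Col B D
    · obtain ⟨Z, h3, h4, h5⟩ := exists_third hF h1 h2 hc
      exact (Relation.ReflTransGen.single ⟨h4, X, h1, h3⟩).tail ⟨h5, X, h3, h2⟩
    · exact Relation.ReflTransGen.single ⟨hc, X, h1, h2⟩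

/-- connectedness for different neighbours in a common subspace -/
theorem con_in (hF : Fo σ ε J) {j : ℕ} (Y : SGr σ J (j + 1)) (P P' : SGr σ J j) :
    Relation.ReflTransGen (fun A B : SGr σ J j => A ≠ B ∧
      ∃ X : SGr σ J (j + 1), Inc A X ∧ Inc B X) P P' := by
  have h := con hF Y P P'
  induction h with
  | refl => exact Relation.ReflTransGen.refl
  | @tail B D _ h ih =>
    refine ih.trans ?_
    by_cases hc : B = D
    · rw [hc]
    · exact Relation.ReflTransGen.single ⟨hc, h⟩

end geo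

end Vale.Agent.P092.H370.O
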