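import Vale.Agent.P092.H766.Z4
import Vale.Agent.P092.H370.O.Z3
import Vale.Agent.P092.H541.Wd.W3

/-!
P092, TEAM P, [CLO-R3] (helper370): helper766's `Z4` for a group `S` which acts on the singular
subspaces of a form of any kind (`Fo`): AGR for adjacent pairs of singular subspaces, from the
calculi of `Z2`.
-/

set_option linter.all false

open scoped InnerProductSpace
open Set Filter Topology Module ContinuousLinearMap

namespace Vale.Agent.P092.H370.O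

open Vale.Agent.P092.H303 (FormGroup)
open Vale.Agent.P092.H370.Po hiding sing_sup_span exists_prod exists_inc_ge exists_above
  exists_extend exists_iso_prod trans_SGr con con2 trans_flag trans_pair_col
open Vale.Agent.P092.H370.Fo (Fo Wf EU ort_symm)
open Vale.Agent.P092.H714.Cl
open Vale.Agent.P092.RC (Cm Moore PicX)
open Vale.Agent.P092.H631.P0 (ul_of_sp)
open Vale.Agent.P092.H232 (Nin two_ind split_inc)
open Vale.Agent.P092.H437.P2 (lc_dense CalP)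
open Vale.Agent.P092.H541.Wd (join_of_colF)
open Vale.Agent.P092.H541.O (trans_pair_inF)

variable {n : Type} [Fintype n] [DecidableEq n] {k : Type} [NontriviallyNormedField k]
  [ProperSpace k] {σ : k →+* k} {ε : k} {J : Matrix n n k} {S : Type} [Group S]
  [∀ j, MulAction S (SGr σ J j)]
  {E Γ K : Type} [Group E] [TopologicalSpace E] [Group Γ] [NormedAddCommGroup K]
  [InnerProductSpace ℂ K] [CompleteSpace K] {ι : S →* E} {π : E →* (K →L[ℂ] K)}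
  {lam : Γ →* (K →L[ℂ] K)} {W : Set (K →L[ℂ] K)} {Ω : K} {q : Γ → S}

/-- the action of `Γ` on the singular subspaces -/
@[reducible] def Bs.act' (h : Bs σ J ι π lam W Ω q) (j : ℕ) : MulAction Γ (SGr σ J j) where
  smul γ X := q γ • X
  one_smul X := h.q1 X
  mul_smul γ γ' X := h.am γ γ' j X

theorem Bs.ccs' [∀ j, ContinuousConstSMul S (SGr σ J j)] (h : Bs σ J ι π lam W Ω q) (j : ℕ) :
    @ContinuousConstSMul Γ (SGr σ J j) _ (h.act' j).toSMul :=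
  letI := h.act' j
  ⟨fun γ => continuous_const_smul (q γ)⟩

variable [Fact (Continuous σ)] [IsUltrametricDist k] [∀ j, ContinuousConstSMul S (SGr σ J j)]
  {φ : S →* FormGroup σ J}

/-- **AGR for a relative position `Adj`** -/
theorem agr_adj (hb : Bs σ J ι π lam W Ω q) (hF : Fo σ ε J) {a i : ℕ} (hi : 1 ≤ i)
    (x₀ : SGr σ J 1) {G : SGr σ J a → (C(SGr σ J i, ℂ) →⋆ₐ[ℂ] (K →L[ℂ] K))}
    (cov : ∀ X γ (f f' : C(SGr σ J i, ℂ)), (∀ Y, f' (q γ • Y) = f Y) →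
      lam γ * G X f * lam γ⁻¹ = G X f')
    (pcov : ∀ X g f, π (ι g) * G X f * π (ι g⁻¹) = G (g • X) f) (cm : ∀ X f, Cm W (G X f))
    (Adj : SGr σ J a → SGr σ J a → Prop)
    (hu : ∀ A B, Adj A B → ∃ D : SGr σ J 2, Col A D ∧ Col B D)
    (htr : ∀ A B A' B', Adj A B → Adj A' B' → ∃ g : S, g • A = A' ∧ g • B = B')
    (hcon : ∀ A B, Relation.ReflTransGen Adj A B) (A B : SGr σ J a) (hAB : Adj A B) :
    ∀ ξ, (∀ f, G A f ξ = G B f ξ) → ξ = 0 := by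
  letI := hb.act' i
  haveI := hb.ccs' i
  have cg : ∀ X γ (f : C(SGr σ J i, ℂ)), lam γ * G X f * lam γ⁻¹ =
      G X (f.comp ⟨fun y => γ⁻¹ • y, continuous_const_smul γ⁻¹⟩) := by
    intro X γ f
    refine cov X γ f _ fun Y => ?_
    change f (q γ⁻¹ • q γ • Y) = f Y
    rw [hb.qinv, inv_smul_smul]
  refine H766.P2.agr_gen (lamG := lam) (π := π.comp ι) (W := W) (F := G) hb.pic.adjL (fun g => ?_)
    hb.pic.Wadj cg (fun X g f => pcov X g f) (fun X w hw f => (cm X f w hw).symm) Adj ?_ htr hcon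
    ?_ A B hAB
  · change adjoint (π (ι g)) = π (ι g⁻¹)
    rw [hb.pic.adjP, map_inv ι g]
  · intro A B hAB P p1 p2 p3 p4 p5
    obtain ⟨D, h2, h3⟩ := hu A B hAB
    exact hb.zo D P p1 p2 p3 p4 fun g hg => p5 g (hg a A h2) (hg a B h3)
  · intro F0 g1 g2 g3
    refine hb.noinv hF x₀ hi F0 (fun g f => g1 g f) g2 fun γ f f' hff => ?_
    refine (g3 γ f).trans (congrArg F0 ?_)
    ext Y
    change f (q γ⁻¹ • Y) = f' Y
    exact (comp_of (h := hb) hff Y).symm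

section gen

variable {a i : ℕ} {G : SGr σ J a → (C(SGr σ J i, ℂ) →⋆ₐ[ℂ] (K →L[ℂ] K))}

/-- AGR for two different subspaces in a common one -/
theorem agr_in (hb : Bs σ J ι π lam W Ω q) (hφ : Rg ε φ) (hF : Fo σ ε J) {i : ℕ} (hi : 1 ≤ i)
    {r : ℕ} (hW : WI σ J r) {j : ℕ} (hj1 : 1 ≤ j) (hj : j < r)
    {G : SGr σ J j → (C(SGr σ J i, ℂ) →⋆ₐ[ℂ] (K →L[ℂ] K))}
    (cov : ∀ X γ (f f' : C(SGr σ J i, ℂ)), (∀ Y, f' (q γ • Y) = f Y) →
      lam γ * G X f * lam γ⁻¹ = G X f')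
    (pcov : ∀ X g f, π (ι g) * G X f * π (ι g⁻¹) = G (g • X) f) (cm : ∀ X f, Cm W (G X f))
    {A B : SGr σ J j} (hAB : A ≠ B) (hX : ∃ X : SGr σ J (j + 1), Inc A X ∧ Inc B X) :
    ∀ ξ, (∀ f, G A f ξ = G B f ξ) → ξ = 0 := by
  obtain ⟨x₀⟩ := H766.Z.exists_pt_of (by omega) hW
  obtain ⟨X, hX1, hX2⟩ := hX
  refine agr_adj hb hF hi x₀ cov pcov cm
    (fun A B => A ≠ B ∧ ∃ X : SGr σ J (j + 1), Inc A X ∧ Inc B X) ?_ ?_ (con_in hF X) A B
    ⟨hAB, X, hX1, hX2⟩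
  · rintro A B ⟨-, X, h1, h2⟩
    obtain ⟨D, hD⟩ := exists_inc_le (i := 2) (by omega) X
    exact ⟨D, fun a ha b hb => X.sing a (h1 ha) b (hD hb),
      fun a ha b hb => X.sing a (h2 ha) b (hD hb)⟩
  · rintro A B A' B' ⟨h1, h2⟩ ⟨h3, h4⟩
    obtain ⟨g, h5, h6⟩ := hφ.one (P := fun g => g • A = A' ∧ g • B = B')
      (trans_pair_inF hF h1 h3 h2 h4)
    exact ⟨g, (hφ.act g j A).trans h5, (hφ.act g j B).trans h6⟩

/-- AGR for two subspaces with a common hyperplane which are not orthogonal -/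
theorem agr_ncol (hb : Bs σ J ι π lam W Ω q) (hφ : Rg ε φ) (hF : Fo σ ε J) {i : ℕ} (hi : 1 ≤ i)
    {j : ℕ} (hj : 2 ≤ j) {G : SGr σ J (j + 1) → (C(SGr σ J i, ℂ) →⋆ₐ[ℂ] (K →L[ℂ] K))}
    (cov : ∀ X γ (f f' : C(SGr σ J i, ℂ)), (∀ Y, f' (q γ • Y) = f Y) →
      lam γ * G X f * lam γ⁻¹ = G X f')
    (pcov : ∀ X g f, π (ι g) * G X f * π (ι g⁻¹) = G (g • X) f) (cm : ∀ X f, Cm W (G X f))
    {A B : SGr σ J (j + 1)} (hAB : ¬ Col A B) (hX : ∃ X : SGr σ J j, Inc X A ∧ Inc X B) :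
    ∀ ξ, (∀ f, G A f ξ = G B f ξ) → ξ = 0 := by
  obtain ⟨x₀, -⟩ := exists_inc_le (i := 1) (by omega) A
  obtain ⟨X, hX1, hX2⟩ := hX
  refine agr_adj hb hF hi x₀ cov pcov cm
    (fun A B => ¬ Col A B ∧ ∃ X : SGr σ J j, Inc X A ∧ Inc X B) ?_ ?_ (con_ncol hF) A B
    ⟨hAB, X, hX1, hX2⟩
  · rintro A B ⟨-, X, h1, h2⟩
    obtain ⟨D, hD⟩ := exists_inc_le (i := 2) hj X
    exact ⟨D, fun a ha b hb => A.sing a ha b (h1 (hD hb)),
      fun a ha b hb => B.sing a ha b (h2 (hD hb))⟩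
  · rintro A B A' B' ⟨h1, X, h2, h3⟩ ⟨h4, X', h5, h6⟩
    obtain ⟨g, h7, h8⟩ := hφ.one (P := fun g => g • A = A' ∧ g • B = B')
      (trans_ncol hF h2 h3 h5 h6 h1 h4)
    exact ⟨g, (hφ.act g _ A).trans h7, (hφ.act g _ B).trans h8⟩

end gen

section cals

variable {i₀ r : ℕ} {G : ∀ j, SGr σ J j → (C(SGr σ J j, ℂ) →⋆ₐ[ℂ] (K →L[ℂ] K))}

theorem Cals.agr_in (hG : Cals i₀ r (π.comp ι) lam W q G) (hb : Bs σ J ι π lam W Ω q)
    (hφ : Rg ε φ) (hF : Fo σ ε J) (hW : WI σ J r) {j : ℕ} (h1 : 1 ≤ j) (h2 : j < r) {A B : SGr σ J j}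
    (hAB : A ≠ B) (hX : ∃ X : SGr σ J (j + 1), Inc A X ∧ Inc B X) :
    ∀ ξ, (∀ f, G j A f ξ = G j B f ξ) → ξ = 0 :=
  O.agr_in hb hφ hF h1 hW h1 h2 (fun X γ f f' => hG.cov j h1 h2.le X γ f f')
    (fun X g f => hG.pcov j h1 h2.le X g f) (fun X f => hG.cm j h1 h2.le X f) hAB hX

theorem Cals.agr_ncol (hG : Cals i₀ r (π.comp ι) lam W q G) (hb : Bs σ J ι π lam W Ω q)
    (hφ : Rg ε φ) (hF : Fo σ ε J) {j : ℕ} (h1 : 2 ≤ j) (h2 : j + 1 ≤ r) {A B : SGr σ J (j + 1)}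
    (hAB : ¬ Col A B) (hX : ∃ X : SGr σ J j, Inc X A ∧ Inc X B) :
    ∀ ξ, (∀ f, G (j + 1) A f ξ = G (j + 1) B f ξ) → ξ = 0 :=
  O.agr_ncol hb hφ hF (by omega) h1 (fun X γ f f' => hG.cov (j + 1) (by omega) h2 X γ f f')
    (fun X g f => hG.pcov (j + 1) (by omega) h2 X g f)
    (fun X f => hG.cm (j + 1) (by omega) h2 X f) hAB hX

/-- AGR for two different subspaces of dimension `< r` with a common hyperplane -/
theorem Cals.agr_adj (hG : Cals i₀ r (π.comp ι) lam W q G) (hb : Bs σ J ι π lam W Ω q)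
    (hφ : Rg ε φ) (hF : Fo σ ε J) (hW : WI σ J r) {j : ℕ} (h1 : 2 ≤ j) (h2 : j + 1 ≤ r)
    {A B : SGr σ J (j + 1)} (hAB : A ≠ B) (hX : ∃ X : SGr σ J j, Inc X A ∧ Inc X B) :
    ∀ ξ, (∀ f, G (j + 1) A f ξ = G (j + 1) B f ξ) → ξ = 0 := by
  by_cases hc : Col A B
  · obtain ⟨X, h3, h4⟩ := hX
    obtain ⟨Z, h5, h6⟩ := join_of_colF hF hAB h3 h4 hc
    have h7 : j + 1 + 1 ≤ r := by
      have := hW.2 Z.S Z.sing
      rwa [Z.dim] at this
    exact hG.agr_in hb hφ hF hW (by omega) (by omega) hAB ⟨Z, h5, h6⟩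
  · exact hG.agr_ncol hb hφ hF h1 h2 hc hX

theorem Cals.calP (hG : Cals i₀ r (π.comp ι) lam W q G) (hb : Bs σ J ι π lam W Ω q)
    (hφ : Rg ε φ) (hF : Fo σ ε J) (hW : WI σ J r) (hr : 3 ≤ r) :
    CalP r (fun i j => Inc (σ := σ) (J := J) (i := i) (j := j)) G where
  com i j h1 h2 h3 X X' h f f' := hG.com i j h1 h2 h3 X X' h f f'
  inc i j h1 h2 h3 X X' h u f hn := hG.inc i j h1 h2 h3 X X' h u f hn
  agr j h1 h2 A B hAB hX ξ h := hG.agr_in hb hφ hF hW h1 h2 hAB hX ξ h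
  agrM := by
    obtain ⟨s, rfl⟩ : ∃ s, r = s + 1 := ⟨r - 1, by omega⟩
    intro A B hAB hX ξ h
    exact hG.agr_adj hb hφ hF hW (j := s) (by omega) le_rfl hAB hX ξ h

end cals

end Vale.Agent.P092.H370.O
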