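import Vale.Agent.P092.H766.Z5
import Vale.Agent.P092.H370.O.Z4

/-!
P092, TEAM P, [CLO-R3] (helper370): helper766's `Z5` for a group `S` which acts on the singular
subspaces of a form of any kind (`Fo`): the letters of the maximal subspaces are their calculi.
-/

set_option linter.all false

open scoped InnerProductSpace
open Set Filter Topology Module ContinuousLinearMap

namespace Vale.Agent.P092.H370.O

open Vale.Agent.P092.H303 (FormGroup)
open Vale.Agent.P092.H370.Po hiding sing_sup_span exists_prod exists_inc_ge exists_above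
  exists_extend exists_iso_prod trans_SGr con con2 trans_flag trans_pair_col
open Vale.Agent.P092.H370.Fo (Fo Wf EU ort_symm)
open Vale.Agent.P092.H714.Cl
open Vale.Agent.P092.RC (Cm Moore PicX)
open Vale.Agent.P092.H631.P0 (ul_of_sp)
open Vale.Agent.P092.H232 (Nin two_ind split_inc)
open Vale.Agent.P092.H437.P2 (lc_dense CalP)
open Vale.Agent.P092.H766.Z (agree_lin exists_two_hyp)

variable {n : Type} [Fintype n] [DecidableEq n] {k : Type} [NontriviallyNormedField k]
  [ProperSpace k] {σ : k →+* k} {ε : k} {J : Matrix n n k} {S : Type} [Group S]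
  [∀ j, MulAction S (SGr σ J j)] {φ : S →* FormGroup σ J}
  {E Γ K : Type} [Group E] [TopologicalSpace E] [Group Γ] [NormedAddCommGroup K]
  [InnerProductSpace ℂ K] [CompleteSpace K] {ι : S →* E} {π : E →* (K →L[ℂ] K)}
  {lam : Γ →* (K →L[ℂ] K)} {W : Set (K →L[ℂ] K)} {Ω : K} {q : Γ → S}
  [Fact (Continuous σ)] [IsUltrametricDist k] [∀ j, ContinuousConstSMul S (SGr σ J j)]
  {i₀ r : ℕ} {G : ∀ j, SGr σ J j → (C(SGr σ J j, ℂ) →⋆ₐ[ℂ] (K →L[ℂ] K))}

/-- a letter `V` incident with the points of a subspace is incident with its calculi -/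
theorem Cals.inc_lin (hG : Cals i₀ r (π.comp ι) lam W q G) (hb : Bs σ J ι π lam W Ω q)
    (hφ : Rg ε φ) (hF : Fo σ ε J) (hW : WI σ J r) {l : SGr σ J r} {V : C(SGr σ J r, ℂ) →ₗ[ℂ] (K →L[ℂ] K)}
    (i1 : ∀ x : SGr σ J 1, Inc x l → ∀ f g, Nin (fun x y => Inc x y) f g → G 1 x f * V g = 0) :
    ∀ j, 1 ≤ j → j ≤ r → ∀ X : SGr σ J j, Inc X l → ∀ f g, Nin (fun x y => Inc x y) f g →
      G j X f * V g = 0 := by
  intro j h1
  induction j, h1 using Nat.le_induction with
  | base => exact fun _ => i1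
  | succ j hj ih =>
    intro hjr X hX f g hfg
    haveI : TotallyDisconnectedSpace (SGr σ J j) := H437.P2.tdS
    obtain ⟨A, B, hAB, hA, hB⟩ := exists_two_hyp hj X
    ext ξ
    change (G (j + 1) X f * V g) ξ = 0
    refine hG.agr_in hb hφ hF hW hj (by omega) hAB ⟨X, hA, hB⟩ _ fun h => ?_
    have key := agree_lin (I := fun (x : SGr σ J j) (z : SGr σ J (j + 1)) => Inc x z)
      (O := fun (b : SGr σ J r) (x : SGr σ J j) => Inc x b)
      (O' := fun (b : SGr σ J r) (z : SGr σ J (j + 1)) => Inc z b) inc_closed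
      (inc_closed.preimage (f := fun p : SGr σ J r × SGr σ J j => (p.2, p.1)) (by fun_prop))
      (fun b z x x' h1 h2 h3 h4 h5 => by
        by_contra hne
        apply h1
        change z.S ≤ b.S
        rw [← H702.PG.sup_eq hne h2 h3]
        exact sup_le h4 h5) (φ₁ := G j A) (φ₂ := G j B) (ψ := G (j + 1) X) (β := V)
      (fun g u => hG.com j (j + 1) hj (by omega) hjr A X hA g u)
      (fun g u => hG.com j (j + 1) hj (by omega) hjr B X hB g u)
      (fun g u hn => hG.inc j (j + 1) hj (by omega) hjr A X hA g u hn)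
      (fun g u hn => hG.inc j (j + 1) hj (by omega) hjr B X hB g u hn)
      (fun g a hn => ih (by omega) A (hA.trans hX) g a fun x hx y hy => hn y hy x hx)
      (fun g a hn => ih (by omega) B (hB.trans hX) g a fun x hx y hy => hn y hy x hx)
      f g (fun x hx y hy => hfg y hy x hx) h
    have := congrArg (fun T : K →L[ℂ] K => T ξ) key
    exact sub_eq_zero.1 this

/-- **the letters of the maximal subspaces are their calculi** -/
theorem Cals.top_eq (hG : Cals i₀ r (π.comp ι) lam W q G) (hb : Bs σ J ι π lam W Ω q)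
    (hφ : Rg ε φ) (hF : Fo σ ε J) (hr : 1 ≤ r) (hW : WI σ J r) {l : SGr σ J r}
    {V : C(SGr σ J r, ℂ) →ₗ[ℂ] (K →L[ℂ] K)} (hV : SP.UL V 1)
    (i1 : ∀ x : SGr σ J 1, Inc x l → ∀ f g, Nin (fun x y => Inc x y) f g → G 1 x f * V g = 0)
    (f : C(SGr σ J r, ℂ)) : G r l f = V f := by
  have h1 : SP.UL ((G r l : C(SGr σ J r, ℂ) →⋆ₐ[ℂ] (K →L[ℂ] K)) :
      C(SGr σ J r, ℂ) →ₗ[ℂ] (K →L[ℂ] K)) 1 := SP.UL.of_hom (G r l)
  have h2 := (ul_of_sp h1).mul_of_disj (ul_of_sp hV) (fun f g hd =>
    hG.inc_lin hb hφ hF hW i1 r hr le_rfl l (Inc.refl l) f g fun x hx y hy hxy => by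
      have e : x = y := inc_iff_eq.1 hxy
      subst e
      exact disjoint_left.1 hd hx hy) f 1
  have h3 : G r l f * V 1 = ((1 : ℝ) : ℂ) • V (f * 1) := h2
  rw [hV.one, mul_one, Complex.ofReal_one, one_smul, one_smul, mul_one] at h3
  exact h3

end Vale.Agent.P092.H370.O
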