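import Vale.Agent.P092.H766.Z7
import Vale.Agent.P092.H370.O.T3S

/-!
P092, TEAM P, [CLO-R3] (helper370): helper766's `Z7` for a group `S` which acts on the singular
subspaces of a form of any kind (`Fo`): the flipped leg of Witt index `r ≥ 3`, the rank count with
the REVERSED source.
-/

set_option linter.all false

open scoped InnerProductSpace
open Set Filter Topology Module ContinuousLinearMap

namespace Vale.Agent.P092.H370.O

open Vale.Agent.P092.H303 (FormGroup)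
open Vale.Agent.P092.H370.Po hiding sing_sup_span exists_prod exists_inc_ge exists_above
  exists_extend exists_iso_prod trans_SGr con con2 trans_flag trans_pair_col
open Vale.Agent.P092.H370.Fo (Fo EU ort_symm trans_SGr con exists_inc_ge)
open Vale.Agent.P092.H714.Cl
open Vale.Agent.P092.H702.TG (YS IS CS)
open Vale.Agent.P092.RC (Cm Moore PicX)
open Vale.Agent.P092.H631.P0 (ul_of_sp)
open Vale.Agent.P092.H232 (Nin)
open Vale.Agent.P092.H766.Z (SR RR toC toC_apply W0f exists_pt_of)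

section src

variable {n : Type} [Fintype n] [DecidableEq n] {k : Type} [NontriviallyNormedField k]
  {σ : k →+* k} {ε : k} {J : Matrix n n k} {S : Type} [Group S] [∀ j, MulAction S (SGr σ J j)]
  {φ : S →* FormGroup σ J}

/-- the action on the reversed source -/
@[reducible] def actSR (σ : k →+* k) (J : Matrix n n k) (S : Type) [Group S]
    [∀ j, MulAction S (SGr σ J j)] (e : ℕ) : MulAction S (SR σ J e) where
  smul g X := ⟨g • X.1, X.2⟩
  one_smul X := Subtype.ext (one_smul _ X.1)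
  mul_smul g g' X := Subtype.ext (mul_smul g g' X.1)

theorem sgeo0S (hφ : Rg ε φ) (hF : Fo σ ε J) {r : ℕ} (hW : WI σ J r) :
    letI := actSR σ J S
    H766.P3.SGeo0 r (SR σ J) (RR (σ := σ) (J := J)) S :=
  letI := actSR σ J S
  { refl := fun i X X' => ⟨fun h => Subtype.ext (SGr.eq_of_le h), fun h => h ▸ Inc.refl X.1⟩
    trans := fun i j l X Y Z h h' => Inc.trans h h'
    pnt := fun j h1 _ X => by
      obtain ⟨x, hx⟩ := exists_inc_le h1 X.1
      exact ⟨⟨x, le_rfl⟩, hx⟩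
    hyp := fun j h1 h2 X => by
      obtain ⟨⟨Y, hY, hd⟩, -⟩ := hW
      obtain ⟨M, hM⟩ := exists_inc_ge hF h2 le_rfl X.1 (SGr.mk' Y hY hd)
      exact ⟨⟨M, h1.trans h2⟩, hM⟩
    act := fun g i j X X' h => hφ.inc g h
    tra := fun j h1 _ X X' => by
      obtain ⟨g, h⟩ := hφ.one (P := fun g => g • X.1 = X'.1) (by
        obtain ⟨g, h2, h, -⟩ := trans_SGr hF X.1 X'.1
        exact ⟨g, h2, h⟩)
      exact ⟨g, Subtype.ext ((hφ.act g j X.1).trans h)⟩
    con := fun j h1 h2 X X' => by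
      obtain ⟨⟨Y, hY, hd⟩, -⟩ := hW
      obtain ⟨Z, -⟩ := exists_inc_le (i := j + 1) (by omega) (SGr.mk' Y hY hd)
      have h := con hF Z X.1 X'.1
      have key : ∀ P : SGr σ J j, Relation.ReflTransGen (fun A B : SGr σ J j =>
          ∃ Z : SGr σ J (j + 1), Inc A Z ∧ Inc B Z) X.1 P →
          Relation.ReflTransGen (fun A B : SR σ J j => ∃ Z : SR σ J (j + 1), RR j (j + 1) A Z ∧
            RR j (j + 1) B Z) X ⟨P, h1⟩ := by
        intro P hP
        induction hP with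
        | refl => exact Relation.ReflTransGen.refl
        | @tail B D _ h ih =>
          obtain ⟨Z, h3, h4⟩ := h
          exact ih.tail ⟨⟨Z, by omega⟩, h3, h4⟩
      exact key X'.1 h }

end src

section main

variable {n : Type} [Fintype n] [DecidableEq n] {k : Type} [NontriviallyNormedField k]
  [ProperSpace k] {σ : k →+* k} {ε : k} {J : Matrix n n k} {S : Type} [Group S]
  [∀ j, MulAction S (SGr σ J j)] {φ : S →* FormGroup σ J}
  {E Γ K : Type} [Group E] [TopologicalSpace E] [Group Γ] [NormedAddCommGroup K]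
  [InnerProductSpace ℂ K] [CompleteSpace K] {ι : S →* E} {π : E →* (K →L[ℂ] K)}
  {lam : Γ →* (K →L[ℂ] K)} {W : Set (K →L[ℂ] K)} {Ω : K} {q : Γ → S}
  [Fact (Continuous σ)] [IsUltrametricDist k] [∀ j, ContinuousConstSMul S (SGr σ J j)]

/-- the calculi of a flipped leg -/
structure Rev (ι : S →* E) (π : E →* (K →L[ℂ] K)) (lam : Γ →* (K →L[ℂ] K))
    (W : Set (K →L[ℂ] K)) (q : Γ → S) {j i : ℕ}
    (Fp : SGr σ J 1 → (C(SGr σ J (j + 1), ℂ) →⋆ₐ[ℂ] (K →L[ℂ] K)))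
    (Gl : SGr σ J 2 → (C(SGr σ J j, ℂ) →⋆ₐ[ℂ] (K →L[ℂ] K)))
    (Ew : SGr σ J (j + 1) → (C(SGr σ J i, ℂ) →⋆ₐ[ℂ] (K →L[ℂ] K))) : Prop where
  cm : ∀ p f, Cm W (Fp p f)
  cov : ∀ p γ (f f' : C(SGr σ J (j + 1), ℂ)), (∀ Y, f' (q γ • Y) = f Y) →
    lam γ * Fp p f * lam γ⁻¹ = Fp p f'
  pcov : ∀ p g f, π (ι g) * Fp p f * π (ι g⁻¹) = Fp (g • p) f
  agr : ∀ l l' : SGr σ J 2, l ≠ l' → (∃ X : SGr σ J 3, Inc l X ∧ Inc l' X) →
    ∀ ξ, (∀ f, Gl l f ξ = Gl l' f ξ) → ξ = 0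
  com2 : ∀ p l, Inc p l → ∀ g f, Commute (Gl l g) (Fp p f)
  inc2 : ∀ p l, Inc p l → ∀ g f, Nin (fun x y => Inc x y) g f → Gl l g * Fp p f = 0
  comE : ∀ p w, Inc p w → ∀ a u, Commute (Ew w a) (Fp p u)
  incE : ∀ p w, Inc p w → ∀ a u, Nin (fun x y => Inc x y) a u → Ew w a * Fp p u = 0

/-- **[P2-0], reversed** -/
theorem out_rev (hb : Bs σ J ι π lam W Ω q) (hφ : Rg ε φ) (hF : Fo σ ε J) {j : ℕ} (hj : 2 ≤ j)
    (hW : WI σ J (j + 1)) {i : ℕ} (hi : i = j + 1 + 1 - (j + 1))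
    {U : SGr σ J (j + 1) → (C(SGr σ J i, ℂ) →ₗ[ℂ] (K →L[ℂ] K))} (hU : Ltr ι π lam W q U)
    (w0 : W0f (j + 1) U) :
    ∃ (Fp : SGr σ J 1 → (C(SGr σ J (j + 1), ℂ) →⋆ₐ[ℂ] (K →L[ℂ] K)))
      (Gl : SGr σ J 2 → (C(SGr σ J j, ℂ) →⋆ₐ[ℂ] (K →L[ℂ] K)))
      (Ew : SGr σ J (j + 1) → (C(SGr σ J i, ℂ) →⋆ₐ[ℂ] (K →L[ℂ] K))),
      Rev ι π lam W q Fp Gl Ew := by
  subst hi
  obtain ⟨r, hr⟩ : ∃ r, r = j + 1 := ⟨_, rfl⟩
  letI actG : ∀ e, MulAction Γ (YS σ J (j + 1) e) := fun e => hb.act (j + 1) e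
  haveI : ∀ e, ContinuousConstSMul Γ (YS σ J (j + 1) e) := fun e => hb.ccs (j + 1) e
  letI actR := actSR σ J S
  obtain ⟨x₀⟩ := exists_pt_of (by omega) hW
  have D : H766.P3.PkD0 (j + 1) (IS (σ := σ) (J := J)) (CS (σ := σ) (J := J) (j + 1) (j + 1))
      (RR (σ := σ) (J := J)) Γ S lam (π.comp ι) W
      (fun (_ : Unit) (x : SR σ J (j + 1)) => toC (U x.1) (hU.ul x.1)) := by
    refine
      { hN := by omega
        tgeo := H702.TG.tgeoS (j + 1)
        pgeo := H541.O.pgeoSF hF hW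
        sgeo := sgeo0S hφ hF hW
        gI := fun γ i i' L L' h => hb.ic (q γ) (j + 1 + 1 - i') (j + 1 + 1 - i) L' L h
        uG := hb.pic.adjL
        uπ := fun g => by
          change adjoint (π (ι g)) = π (ι g⁻¹)
          rw [hb.pic.adjP, map_inv ι g]
        sW := hb.pic.Wadj
        one := fun _ x => ?_
        str := fun _ x f => ?_
        covG := fun γ _ x f => ?_
        covπ := fun g _ x f => ?_
        covW := fun w hw _ x f => (hU.cm x.1 f w hw).symm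
        zo := ?_
        noinv := ?_
        w0 := ?_ }
    · change U x.1 1 = 1
      rw [(hU.ul x.1).one, Complex.ofReal_one, one_smul]
    · exact ((hU.ul x.1).star f).trans (star_eq_adjoint _)
    · refine hU.cov γ x.1 f _ fun y => ?_
      change f (q γ⁻¹ • q γ • (show SGr σ J (j + 1 + 1 - (j + 1)) from y)) = f y
      rw [hb.qinv, inv_smul_smul]
    · change π (ι g) * U x.1 f * π (ι g⁻¹) = U (g • x.1) f
      rw [map_inv ι g]
      exact hU.pcov g x.1 f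
    · intro e h1 h2 X P p1 p2 p3 p4 p5
      obtain ⟨D, hD⟩ := exists_D hF hW (by omega) h1 X.1
      refine hb.zo D P p1 p2 p3 p4 fun g hg => p5 g ?_
      exact Subtype.ext (hg e X.1 (hD e X.1 (Inc.refl X.1)))
    · intro e h1 h2 G g1 g2 g3
      refine hb.noinv (j := j + 1 + 1 - e) hF x₀ (by omega) G g1 g2 fun γ f f' hff => ?_
      have e1 := g3 γ f
      refine e1.trans (congrArg G ?_)
      ext Y
      exact (comp_of (h := hb) (j := j + 1 + 1 - e) hff Y).symm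
    · intro c T hT a x b x' hx hx' u h hop
      refine w0 c.1 T ?_ x.1 x'.1 hx hx' u h hop
      refine Submonoid.closure_mono ?_ hT
      rintro _ ⟨_, y, f, hy, rfl⟩
      exact ⟨y.1, f, hy, rfl⟩
  have hne : ∀ e, SR σ J e → Nonempty (YS σ J (j + 1) e) := by
    intro e X
    have h1 := hW.2 X.1.S X.1.sing
    rw [X.1.dim] at h1
    have h2 := X.2
    obtain ⟨⟨Y, hY, hd⟩, -⟩ := hW
    obtain ⟨Z, -⟩ := exists_inc_le (i := j + 1 + 1 - e) (by omega) (SGr.mk' Y hY hd)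
    exact ⟨Z⟩
  obtain ⟨G, hG⟩ := H766.P3.pkOut (H766.P2.locH_of D.tgeo) hne D
  obtain ⟨Fp, hFp⟩ : ∃ Fp : SGr σ J 1 → (C(SGr σ J (j + 1), ℂ) →⋆ₐ[ℂ] (K →L[ℂ] K)),
    Fp = fun p => G 1 ⟨p, le_rfl⟩ := ⟨_, rfl⟩
  obtain ⟨Gl, hGl⟩ : ∃ Gl : SGr σ J 2 → (C(SGr σ J j, ℂ) →⋆ₐ[ℂ] (K →L[ℂ] K)),
    Gl = fun l => G 2 ⟨l, one_le_two⟩ := ⟨_, rfl⟩
  have c2 : ∀ p l, Inc p l → ∀ g f, Commute (Gl l g) (Fp p f) := by
    intro p l h g f
    subst hFp hGl
    exact (hG.com 1 2 le_rfl one_le_two (by omega) ⟨p, le_rfl⟩ ⟨l, one_le_two⟩ h f g).symm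
  have cE : ∀ p w, Inc p w → ∀ a u, Commute (G (j + 1) ⟨w, by omega⟩ a) (Fp p u) := by
    intro p w h a u
    subst hFp
    exact (hG.com 1 (j + 1) le_rfl (by omega) le_rfl ⟨p, le_rfl⟩ ⟨w, by omega⟩ h u a).symm
  refine ⟨Fp, Gl, fun w => G (j + 1) ⟨w, by omega⟩, ?_, ?_, ?_, ?_, c2, ?_, cE, ?_⟩
  · intro p f w hw
    subst hFp
    exact (hG.covW 1 le_rfl (by omega) ⟨p, le_rfl⟩ w hw f).symm
  · intro p γ f f' hff
    subst hFp
    refine (hG.covG 1 le_rfl (by omega) ⟨p, le_rfl⟩ γ f).trans (congrArg (G 1 ⟨p, le_rfl⟩) ?_)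
    ext Y
    exact (comp_of (h := hb) (j := j + 1) hff Y).symm
  · intro p g f
    subst hFp
    exact hG.covπ 1 le_rfl (by omega) ⟨p, le_rfl⟩ g f
  · intro l l' hll hX
    subst hGl
    refine agr_in hb hφ hF (i := j) (by omega) hW (j := 2) (by omega) (by omega)
      (G := fun l => G 2 ⟨l, one_le_two⟩) (fun l γ f f' hff => ?_)
      (fun l g f => hG.covπ 2 one_le_two (by omega) ⟨l, one_le_two⟩ g f)
      (fun l f w hw => (hG.covW 2 one_le_two (by omega) ⟨l, one_le_two⟩ w hw f).symm) hll hX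
    refine (hG.covG 2 one_le_two (by omega) ⟨l, one_le_two⟩ γ f).trans
      (congrArg (G 2 ⟨l, one_le_two⟩) ?_)
    ext Y
    exact (comp_of (h := hb) (j := j) hff Y).symm
  · intro p l h g f hn
    rw [(c2 p l h g f).eq]
    subst hFp hGl
    exact hG.inc 1 2 le_rfl one_le_two (by omega) ⟨p, le_rfl⟩ ⟨l, one_le_two⟩ h f g
      fun x hx y hy hxy => hn y hy x hx hxy
  · intro p w h a u hn
    refine (cE p w h a u).eq.trans ?_
    subst hFp
    exact hG.inc 1 (j + 1) le_rfl (by omega) le_rfl ⟨p, le_rfl⟩ ⟨w, by omega⟩ h u a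
      fun x hx y hy hxy => hn y hy x hx hxy

end main

end Vale.Agent.P092.H370.O
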