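import Vale.Agent.P092.H370.O.Z6
import Vale.Agent.P092.H370.O.Z7
import Vale.Agent.P092.H604.T3F

/-!
P092, TEAM P, [CLO-R3] (helper370): helper766's `Z8` for a group `S` which acts on the singular
subspaces of a form of any kind (`Fo`): Witt index `r ≥ 3`: a leg is not flipped.
-/

set_option linter.all false

open scoped InnerProductSpace
open Set Filter Topology Module ContinuousLinearMap

namespace Vale.Agent.P092.H370.O

open Vale.Agent.P092.H303 (FormGroup)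
open Vale.Agent.P092.H370.Po hiding sing_sup_span exists_prod exists_inc_ge exists_above
  exists_extend exists_iso_prod trans_SGr con con2 trans_flag trans_pair_col
open Vale.Agent.P092.H370.Fo (Fo EU ort_symm sing_sup_span)
open Vale.Agent.P092.H714.Cl
open Vale.Agent.P092.RC (Cm Moore PicX)
open Vale.Agent.P092.H232 (Nin)
open Vale.Agent.P092.CL (Lt Geo PB UFam HFam LegP LegS act)
open Vale.Agent.P092.H766.Z (exists_two_hyp)

section geo

variable {n : Type} [Fintype n] [DecidableEq n] {k : Type} [NontriviallyNormedField k]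
  [ProperSpace k] {σ : k →+* k} {ε : k} {J : Matrix n n k} [Fact (Continuous σ)]
  [IsUltrametricDist k]

/-- the lines through `p` which meet `w`: two of them in a common plane -/
theorem exists_lines (hF : Fo σ ε J) {j : ℕ} (hj : 2 ≤ j) {p : SGr σ J 1}
    {w : SGr σ J (j + 1)} (hpw : ¬ Inc p w) :
    ∃ (q q' : SGr σ J 1) (l l' : SGr σ J 2) (X : SGr σ J 3), l ≠ l' ∧ Inc q w ∧ Inc q' w ∧
      Inc p l ∧ Inc q l ∧ Inc p l' ∧ Inc q' l' ∧ Inc l X ∧ Inc l' X := by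
  obtain ⟨v, v0, hv⟩ := H370.Fo.exists_vec p
  have hvp : v ∈ p.S := by rw [hv]; exact Submodule.mem_span_singleton_self v
  have hvv : hf σ J v v = 0 := p.sing v hvp v hvp
  have hvw : v ∉ w.S := fun h => hpw (by
    change p.S ≤ w.S
    rw [hv]
    exact (Submodule.span_singleton_le_iff_mem _ _).2 h)
  let φ : w.S →ₗ[k] k :=
    { toFun := fun x => hf σ J x.1 v
      map_add' := fun x y => hf_add_left _ _ _ _ _
      map_smul' := fun c x => hf_smul_left _ _ _ _ _ }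
  set H : Submodule k (n → k) := (LinearMap.ker φ).map w.S.subtype with hH
  have hHw : H ≤ w.S := by
    rw [hH]
    exact Submodule.map_subtype_le _ _
  have hHv : ∀ x ∈ H, hf σ J x v = 0 := by
    intro x hx
    rw [hH] at hx
    obtain ⟨y, hy, rfl⟩ := hx
    exact hy
  have hd : 2 ≤ finrank k H := by
    have h1 := LinearMap.finrank_range_add_finrank_ker φ
    rw [w.dim] at h1
    have h2 : finrank k (LinearMap.range φ) ≤ 1 :=
      (Submodule.finrank_le _).trans_eq (finrank_self k)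
    have h3 : finrank k H = finrank k (LinearMap.ker φ) := by
      rw [hH]
      exact (Submodule.equivMapOfInjective _ w.S.injective_subtype _).finrank_eq.symm
    omega
  obtain ⟨M, hM, hMd⟩ := exists_sub hd
  set m : SGr σ J 2 := SGr.mk' M (w.sing.mono (hM.trans hHw)) hMd with hm
  have hmw : Inc m w := hM.trans hHw
  have join : ∀ {a : ℕ} (s : SGr σ J a), Inc s m → ∃ t : SGr σ J (a + 1), Inc s t ∧ Inc p t ∧
      t.S = s.S ⊔ Submodule.span k {v} := by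
    intro a s hs
    have hvs : v ∉ s.S := fun h => hvw (hmw (hs h))
    refine ⟨SGr.mk' (s.S ⊔ Submodule.span k {v}) (sing_sup_span hF s.sing hvv
      fun x hx => hHv x (hM (hs hx))) (by rw [finrank_sup_span hvs, s.dim]), le_sup_left, ?_, rfl⟩
    change p.S ≤ s.S ⊔ Submodule.span k {v}
    rw [hv]
    exact le_sup_right
  obtain ⟨q, q', hqq, hq, hq'⟩ := exists_two_hyp (j := 1) le_rfl (show SGr σ J (1 + 1) from m)
  obtain ⟨l, h1, h2, h3⟩ := join q hq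
  obtain ⟨l', h1', h2', h3'⟩ := join q' hq'
  obtain ⟨X, h4, h5, h6⟩ := join m (Inc.refl m)
  refine ⟨q, q', l, l', X, ?_, hq.trans hmw, hq'.trans hmw, h2, h1, h2', h1', ?_, ?_⟩
  · intro he
    subst he
    have h7 := H702.PG.sup_eq hqq h1 h1'
    exact hpw (h2.trans (show Inc l w by
      change l.S ≤ w.S
      rw [← h7]
      exact sup_le (hq.trans hmw) (hq'.trans hmw)))
  · change l.S ≤ X.S
    rw [h3, h6]
    exact sup_le_sup_right hq _
  · change l'.S ≤ X.S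
    rw [h3', h6]
    exact sup_le_sup_right hq' _

end geo

variable {n : Type} [Fintype n] [DecidableEq n] {k : Type} [NontriviallyNormedField k]
  [ProperSpace k] {σ : k →+* k} {ε : k} {J : Matrix n n k} {S : Type} [Group S]
  [TopologicalSpace S] [∀ j, MulAction S (SGr σ J j)] {φ : S →* FormGroup σ J}
  {E Γ K : Type} [Group E] [TopologicalSpace E] [Group Γ] [NormedAddCommGroup K]
  [InnerProductSpace ℂ K] [CompleteSpace K] {ι : S →* E} {π : E →* (K →L[ℂ] K)}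
  {lam : Γ →* (K →L[ℂ] K)} {W : Set (K →L[ℂ] K)} {Ω : K} {q : Γ → S}
  [Fact (Continuous σ)] [IsUltrametricDist k] [∀ j, ContinuousConstSMul S (SGr σ J j)]

/-- **T3, first part** -/
theorem Rev.nin (hF : Fo σ ε J) {j : ℕ} (hj : 2 ≤ j) (hW : WI σ J (j + 1))
    {Fp : SGr σ J 1 → (C(SGr σ J (j + 1), ℂ) →⋆ₐ[ℂ] (K →L[ℂ] K))}
    {Gl : SGr σ J 2 → (C(SGr σ J j, ℂ) →⋆ₐ[ℂ] (K →L[ℂ] K))}
    {Ew : SGr σ J (j + 1) → (C(SGr σ J 1, ℂ) →⋆ₐ[ℂ] (K →L[ℂ] K))}
    (h : Rev ι π lam W q Fp Gl Ew) (p : SGr σ J 1) (w : SGr σ J (j + 1))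
    (u : C(SGr σ J (j + 1), ℂ)) (a : C(SGr σ J 1, ℂ))
    (hn : Nin (fun (L : SGr σ J (j + 1)) (x : SGr σ J 1) => Inc x L) u a) :
    Fp p u * Ew w a = 0 := by
  by_cases hpw : Inc p w
  · rw [← (h.comE p w hpw a u).eq]
    exact h.incE p w hpw a u fun x hx y hy hxy => hn y hy x hx hxy
  · obtain ⟨q, q', l, l', X, h1, h2, h3, h4, h5, h6, h7, h8, h9⟩ := exists_lines hF hj hpw
    exact t3_nin hF hW (Gl := Gl l) (Gl2 := Gl l') (Fq := Fp q) (Fq2 := Fp q')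
      (fun g u => h.com2 p l h4 g u) (fun g u hn => h.inc2 p l h4 g u hn)
      (fun g u => h.com2 p l' h6 g u) (fun g u hn => h.inc2 p l' h6 g u hn)
      (fun g u hn => h.inc2 q l h5 g u hn) (fun g u hn => h.inc2 q' l' h7 g u hn)
      (fun a u => h.comE q w h2 a u) (fun a u hn => h.incE q w h2 a u hn)
      (fun a u => h.comE q' w h3 a u) (fun a u hn => h.incE q' w h3 a u hn)
      (h.agr l l' h1 ⟨X, h8, h9⟩) u a hn

theorem Rev.two (hF : Fo σ ε J) {j : ℕ} (hj : 2 ≤ j) (hW : WI σ J (j + 1))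
    {Fp : SGr σ J 1 → (C(SGr σ J (j + 1), ℂ) →⋆ₐ[ℂ] (K →L[ℂ] K))}
    {Gl : SGr σ J 2 → (C(SGr σ J j, ℂ) →⋆ₐ[ℂ] (K →L[ℂ] K))}
    {Ew : SGr σ J (j + 1) → (C(SGr σ J 1, ℂ) →⋆ₐ[ℂ] (K →L[ℂ] K))}
    (h : Rev ι π lam W q Fp Gl Ew) (p p' : SGr σ J 1) (u v : C(SGr σ J (j + 1), ℂ))
    (hd : ∀ l ∈ tsupport u, ∀ l' ∈ tsupport v, ∀ x : SGr σ J 1, Inc x l → ¬ Inc x l') :
    Fp p u * Fp p' v = 0 := by
  obtain ⟨Y, hY, hd'⟩ := hW.1
  exact H604.T3.t3_two (Ew := Ew (SGr.mk' Y hY hd')) (Rev.nin hF hj hW h p _)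
    (Rev.nin hF hj hW h p' _) u v hd

section flip

variable {r : ℕ} {V₁ V₂ : Type} [MeasurableSpace V₁] [MeasurableSpace V₂]
  [NormedAddCommGroup V₁] [NormedAddCommGroup V₂]
  {L : Lt S (SGr σ J 1) (SGr σ J r) V₁ V₂} {𝒰 : Ultrafilter ℕ}
  {m : Set Γ → (K →L[ℂ] K)}

/-- the word lemma for the letters of the maximal subspaces through a point -/
def W0M (L : Lt S (SGr σ J 1) (SGr σ J r) V₁ V₂)
    (U21 : SGr σ J r → (C(SGr σ J 1, ℂ) →ₗ[ℂ] (K →L[ℂ] K))) : Prop :=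
  ∀ c : SGr σ J 1, ∀ T ∈ Submonoid.closure {T : K →L[ℂ] K | ∃ w f, L.In c w ∧ T = U21 w f},
    ∀ w w', L.In c w → L.In c w' → ∀ u h : C(SGr σ J 1, ℂ),
      (∀ y ∈ tsupport u, ∀ y' ∈ tsupport h, ¬ Col y y') → U21 w u * T * U21 w' h = 0

/-- **Witt index `r ≥ 3`: no flipped leg** -/
theorem no_flip (hφ : Rg ε φ) (hφc : Continuous φ) (hF : Fo σ ε J) (hW : WI σ J r) (hr : 3 ≤ r)
    (hIn : ∀ x l, L.In x l ↔ Inc x l) (hG : Geo L) (hI : H306.G.PurIn L)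
    {U11 : SGr σ J 1 → (C(SGr σ J 1, ℂ) →ₗ[ℂ] (K →L[ℂ] K))} {p11 : ℝ}
    {U12 : SGr σ J 1 → (C(SGr σ J r, ℂ) →ₗ[ℂ] (K →L[ℂ] K))} {p12 : ℝ}
    {U21 : SGr σ J r → (C(SGr σ J 1, ℂ) →ₗ[ℂ] (K →L[ℂ] K))} {p21 : ℝ}
    {U22 : SGr σ J r → (C(SGr σ J r, ℂ) →ₗ[ℂ] (K →L[ℂ] K))} {p22 : ℝ}
    (h : LegP L 𝒰 ι π lam W Ω m q U11 p11 U12 p12 U21 p21 U22 p22) (h1 : p21 = 1)
    (w0 : W0M L U21) : False := by
  subst h1
  obtain ⟨j, rfl⟩ : ∃ j, r = j + 1 := ⟨r - 1, by omega⟩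
  have hb := bs_of hφ hφc hF hIn hG h.base
  obtain ⟨Fp, Gl, Ew, hR⟩ := out_rev (i := 1) hb hφ hF (by omega) hW (by omega)
    (ltr_of h.u21) (fun c T hT w w' hw hw' u f huf => w0 c T (by
      refine Submonoid.closure_mono ?_ hT
      rintro _ ⟨y, f, hy, rfl⟩
      exact ⟨y, f, (hIn _ _).2 hy, rfl⟩) w w' ((hIn _ _).2 hw) ((hIn _ _).2 hw') u f huf)
  haveI : Nonempty (SGr σ J 1) := ⟨L.p0⟩
  refine H604.T3.no_family hG hI h.base Fp hR.cm (fun γ p f => ?_) (fun g p f => ?_)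
    fun p p' u v hd => Rev.two hF (by omega) hW hR p p' u v fun l hl l' hl' x hx hx' =>
      hd l hl l' hl' x ((hIn _ _).2 hx) ((hIn _ _).2 hx')
  · refine hR.cov p γ f _ fun Y => ?_
    change f ((q γ)⁻¹ • q γ • Y) = f Y
    rw [inv_smul_smul]
  · rw [← hR.pcov p g f, map_inv ι g]

end flip

end Vale.Agent.P092.H370.O
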