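import Vale.Agent.P092.H766.NoInv
import Vale.Agent.P092.H44.HMpI

/-!
P092, TEAM P, [CLO-R3] (helper370): helper766's `NoInv` for forms of every kind (`Fo`) and for a
group `S` which acts on the singular subspaces.
-/

set_option linter.all false

open scoped InnerProductSpace
open Set Filter Topology ContinuousLinearMap

namespace Vale.Agent.P092.H370.O

open Vale.Agent.P092.H303 (FormGroup isClosed_formGroup locallyCompact_formGroup
  secondCountable_formGroup)
open Vale.Agent.P092.H370.Po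
open Vale.Agent.P092.H370.Fo (Fo)
open Vale.Agent.P092.H714.Cl
open Vale.Agent.P092.H631.P2 (OppS not_opp_iff opp_open)
open Vale.Agent.P092.H44.HM (opp_dense_fo)
open Vale.Agent.P092.H766.NI (ind ind_apply ind_mem ind_not ind_nonneg no_state oppS_pt)
open Vale.Agent.P092.RC (Cm)

section geo

variable {n : Type} [Fintype n] [DecidableEq n] {k : Type} [NontriviallyNormedField k]
  [ProperSpace k] {σ : k →+* k} {ε : k} {J : Matrix n n k} {i j : ℕ}

/-- the orbit map is open -/
theorem orbit_open (hσ : Continuous σ) (hF : Fo σ ε J) (X : SGr σ J j) :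
    IsOpenMap fun g : FormGroup σ J => g • X := by
  haveI := Fact.mk hσ
  haveI : LocallyCompactSpace (FormGroup σ J) := locallyCompact_formGroup hσ J
  haveI : SecondCountableTopology (FormGroup σ J) := secondCountable_formGroup J
  haveI : MulAction.IsPretransitive (FormGroup σ J) (SGr σ J j) := ⟨fun X Y => by
    obtain ⟨g, -, hg, -⟩ := H370.Fo.trans_SGr hF X Y
    exact ⟨g, hg⟩⟩
  exact isOpenMap_smul_of_sigmaCompact X

theorem near_inc' (hσ : Continuous σ) (hF : Fo σ ε J) {y : SGr σ J i}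
    {L : SGr σ J j} (h : Inc y L) {U : Set (SGr σ J i)} (hU : U ∈ 𝓝 y) :
    ∀ᶠ L' in 𝓝 L, ∃ y' ∈ U, Inc y' L' := by
  have h1 : (fun g : FormGroup σ J => g • y) ⁻¹' U ∈ 𝓝 (1 : FormGroup σ J) := by
    refine (continuous_id.smul continuous_const).continuousAt.preimage_mem_nhds ?_
    change U ∈ 𝓝 ((1 : FormGroup σ J) • y)
    rw [one_smul]
    exact hU
  have h2 := (orbit_open hσ hF L).image_mem_nhds h1
  rw [one_smul] at h2
  filter_upwards [h2] with L' hL'
  obtain ⟨g, hg, rfl⟩ := hL'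
  exact ⟨g • y, hg, (inc_smul g).2 h⟩

variable [Fact (Continuous σ)]

/-- arbitrarily many pairwise opposite points -/
theorem pairwise_opp (hF : Fo σ ε J) (x₀ : SGr σ J 1) (N : ℕ) :
    ∃ u : Fin N → SGr σ J 1, ∀ i j, i ≠ j → ¬ Col (u i) (u j) := by
  have hσ : Continuous σ := Fact.out
  induction N with
  | zero => exact ⟨fun i => i.elim0, fun i => i.elim0⟩
  | succ N ih =>
    obtain ⟨u, hu⟩ := ih
    have hd : Dense (⋂ i : Fin N, {x : SGr σ J 1 | OppS x (u i)}) := by
      refine dense_iInter_of_isOpen (fun i => opp_open hσ (u i)) fun i => ?_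
      rw [dense_iff_inter_open]
      intro U hU hUn
      obtain ⟨X, hX, hX2⟩ := opp_dense_fo hF hσ hU hUn (u i)
      exact ⟨X, hX, hX2⟩
    haveI : Nonempty (SGr σ J 1) := ⟨x₀⟩
    obtain ⟨x, hx⟩ := hd.nonempty
    have hx' : ∀ i, ¬ Col x (u i) := fun i => oppS_pt.1 (mem_iInter.1 hx i)
    refine ⟨Fin.cons x u, fun i j hij => ?_⟩
    induction i using Fin.cases with
    | zero =>
      induction j using Fin.cases with
      | zero => exact absurd rfl hij
      | succ j => simpa using hx' j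
    | succ i =>
      induction j using Fin.cases with
      | zero =>
        simp only [Fin.cons_succ, Fin.cons_zero]
        exact fun h => hx' i (H370.Fo.ort_symm hF h)
      | succ j =>
        simp only [Fin.cons_succ]
        exact hu i j fun h => hij (by rw [h])

variable [IsUltrametricDist k]

/-- **no invariant calculus of any type** -/
theorem noinv (hF : Fo σ ε J) (x₀ : SGr σ J 1) {S : Type} [Group S]
    [∀ j, MulAction S (SGr σ J j)] [∀ j, ContinuousConstSMul S (SGr σ J j)]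
    {E Γ K : Type} [Group E] [TopologicalSpace E]
    [Group Γ] [NormedAddCommGroup K] [InnerProductSpace ℂ K] [CompleteSpace K]
    {π : E →* (K →L[ℂ] K)} {lam : Γ →* (K →L[ℂ] K)} {W : Set (K →L[ℂ] K)} {Ω : K}
    (hp : RC.PicX π lam W Ω) {q : Γ → S}
    (ic : ∀ (g : S) (i j : ℕ) (x : SGr σ J i) (y : SGr σ J j), Inc x y → Inc (g • x) (g • y))
    (prox : ∀ (z : SGr σ J 1) (D : Set (SGr σ J 1)), IsCompact D → (∀ y ∈ D, ¬ Col y z) →
      ∀ U : Set (SGr σ J 1), IsOpen U → U.Nonempty → ∃ γ, ∀ y ∈ D, q γ • y ∈ U)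
    {j : ℕ} (hj : 1 ≤ j) [TotallyDisconnectedSpace (SGr σ J j)]
    [TotallyDisconnectedSpace (SGr σ J 1)]
    (G : C(SGr σ J j, ℂ) →⋆ₐ[ℂ] (K →L[ℂ] K)) (h3 : ∀ g f, π g * G f = G f * π g)
    (h4 : ∀ w ∈ W, ∀ f, w * G f = G f * w)
    (h5 : ∀ γ (f f' : C(SGr σ J j, ℂ)), (∀ X, f' (q γ • X) = f X) →
      lam γ * G f * lam γ⁻¹ = G f') : False := by
  have hσ : Continuous σ := Fact.out
  obtain ⟨Ω', hΩ1, hinv⟩ := hp.inv
  let cx : C(SGr σ J j, ℝ) →ₗ[ℝ] C(SGr σ J j, ℂ) :=
    { toFun := fun f => ⟨fun x => ((f x : ℝ) : ℂ), Complex.continuous_ofReal.comp f.continuous⟩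
      map_add' := fun f g => by ext x; simp
      map_smul' := fun c f => by ext x; simp }
  let φ : C(SGr σ J j, ℝ) →ₗ[ℝ] ℝ :=
    { toFun := fun f => (⟪Ω', G (cx f) Ω'⟫_ℂ).re
      map_add' := fun f g => by
        rw [map_add, map_add, add_apply, inner_add_right, Complex.add_re]
      map_smul' := fun c f => by
        have e : cx (c • f) = (c : ℂ) • cx f := by ext x; simp [cx]
        rw [e, map_smul, ContinuousLinearMap.smul_apply, inner_smul_right, Complex.re_ofReal_mul]
        rfl }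
  have hφ : ∀ f, φ f = (⟪Ω', G (cx f) Ω'⟫_ℂ).re := fun f => rfl
  have hinvφ : ∀ (γ : Γ) (f f' : C(SGr σ J j, ℝ)), (∀ X, f' (q γ • X) = f X) → φ f' = φ f := by
    intro γ f f' h
    rw [hφ, hφ, ← h5 γ (cx f) (cx f') fun X => by
      change ((f' (q γ • X) : ℝ) : ℂ) = ((f X : ℝ) : ℂ)
      rw [h X]]
    rw [hinv (G (cx f)) (fun w hw => (h4 w hw _).symm) (fun g => (h3 g _).symm) γ]
  have hpos : ∀ f : C(SGr σ J j, ℝ), (∀ y, 0 ≤ f y) → 0 ≤ φ f := by
    intro f hf
    let s : C(SGr σ J j, ℂ) := ⟨fun x => ((Real.sqrt (f x) : ℝ) : ℂ),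
      Complex.continuous_ofReal.comp (Real.continuous_sqrt.comp f.continuous)⟩
    have e : cx f = star s * s := by
      ext x
      change ((f x : ℝ) : ℂ) = star ((Real.sqrt (f x) : ℝ) : ℂ) * ((Real.sqrt (f x) : ℝ) : ℂ)
      rw [Complex.star_def, Complex.conj_ofReal, ← Complex.ofReal_mul, Real.mul_self_sqrt (hf x)]
    rw [hφ, e, map_mul, map_star, star_eq_adjoint]
    change 0 ≤ (⟪Ω', adjoint (G s) (G s Ω')⟫_ℂ).re
    rw [adjoint_inner_right]
    have := inner_self_nonneg (𝕜 := ℂ) (x := G s Ω')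
    exact this
  have h1 : φ 1 = 1 := by
    have e : cx 1 = 1 := by ext x; simp [cx]
    rw [hφ, e, map_one]
    change (⟪Ω', Ω'⟫_ℂ).re = 1
    rw [inner_self_eq_norm_sq_to_K, hΩ1]
    norm_num
  have mono : ∀ f g : C(SGr σ J j, ℝ), (∀ y, f y ≤ g y) → φ f ≤ φ g := by
    intro f g h
    have := hpos (g - f) fun y => by
      change 0 ≤ g y - f y
      linarith [h y]
    rw [map_sub] at this
    linarith
  refine no_state (Z := SGr σ J 1) (U := SGr σ J 1) φ hpos h1
    (O := fun z => {X : SGr σ J j | ¬ Col z X}) (fun z => ?_) (fun X => ?_)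
    (M := fun u => {X : SGr σ J j | Inc u X}) (fun u => ?_) (fun N => ?_) ?_
  · have := (col_closed (σ := σ) (J := J) (i := 1) (j := j) hσ).preimage
      (f := fun X : SGr σ J j => (z, X)) (continuous_const.prodMk continuous_id)
    exact this.isOpen_compl
  · obtain ⟨x, hx⟩ := exists_inc_le hj X
    obtain ⟨z, -, hz⟩ := opp_dense_fo hF hσ isOpen_univ ⟨x, mem_univ _⟩ x
    exact ⟨z, fun hc => (oppS_pt.1 hz) (Ort.mono hc le_rfl hx)⟩
  · exact (inc_closed (σ := σ) (J := J) (i := 1) (j := j)).preimage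
      (f := fun X : SGr σ J j => (u, X)) (continuous_const.prodMk continuous_id)
  · obtain ⟨u, hu⟩ := pairwise_opp hF x₀ N
    refine ⟨u, fun i j hij => ?_⟩
    rw [disjoint_left]
    intro X h1 h2
    exact hu i j hij fun x hx y hy => X.sing x (h1 hx) y (h2 hy)
  · intro z u D V hD hV hDz hMV
    -- a compact set of points opposite to `z` which meets every element of `D`
    have hloc : ∀ X ∈ D, ∃ C : Set (SGr σ J 1), IsClopen C ∧ (∀ x ∈ C, ¬ Col x z) ∧
        {L : SGr σ J j | ∃ x ∈ C, Inc x L} ∈ 𝓝 X := by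
      intro X hX
      have h7 : ∃ x : SGr σ J 1, Inc x X ∧ ¬ Col x z := by
        by_contra hcon
        push Not at hcon
        apply hDz hX
        intro a ha b hb
        by_cases hb0 : b = 0
        · rw [hb0]; exact hf_zero_right _ _ _
        · have hle : Submodule.span k {b} ≤ X.S := (Submodule.span_singleton_le_iff_mem _ _).2 hb
          have h8 := hcon (SGr.mk' (Submodule.span k {b}) (X.sing.mono hle)
            (finrank_span_singleton hb0)) hle
          exact hF.fm.symm0 (h8 b (Submodule.mem_span_singleton_self b) a ha)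
      obtain ⟨x, hx, hxz⟩ := h7
      have ho : IsOpen {y : SGr σ J 1 | ¬ Col y z} := by
        have := (col_closed (σ := σ) (J := J) (i := 1) (j := 1) hσ).preimage
          (f := fun y : SGr σ J 1 => (y, z)) (continuous_id.prodMk continuous_const)
        exact this.isOpen_compl
      obtain ⟨C, hC, hxC, hCo⟩ := compact_exists_isClopen_in_isOpen ho hxz
      exact ⟨C, hC, fun y hy => hCo hy, near_inc' hσ hF hx (hC.isOpen.mem_nhds hxC)⟩
    choose! C hC1 hC2 hC3 using hloc
    obtain ⟨t, ht, htc⟩ := hD.1.isCompact.elim_nhds_subcover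
      (fun X => {L : SGr σ J j | ∃ x ∈ C X, Inc x L}) hC3
    have hDc : IsCompact (⋃ X ∈ t, C X) :=
      t.isCompact_biUnion fun X hX => (hC1 X (ht X hX)).1.isCompact
    -- a neighbourhood of `u` all of whose points are only in elements of `V`
    have hUo : IsOpen {x : SGr σ J 1 | ∃ L : SGr σ J j, L ∉ V ∧ Inc x L}ᶜ := by
      rw [isOpen_compl_iff]
      have e : {x : SGr σ J 1 | ∃ L : SGr σ J j, L ∉ V ∧ Inc x L} =
          Prod.fst '' ({p : SGr σ J 1 × SGr σ J j | Inc p.1 p.2} ∩ (Prod.snd ⁻¹' Vᶜ)) := by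
        ext x
        constructor
        · rintro ⟨L, h8, h9⟩
          exact ⟨(x, L), ⟨h9, h8⟩, rfl⟩
        · rintro ⟨⟨x', L⟩, ⟨h8, h9⟩, rfl⟩
          exact ⟨L, h9, h8⟩
      rw [e]
      exact ((inc_closed.inter (hV.compl.1.preimage continuous_snd)).isCompact.image
        continuous_fst).isClosed
    obtain ⟨γ, hγ⟩ := prox z _ hDc (by
      intro y hy
      obtain ⟨X, hX, hyX⟩ := mem_iUnion₂.1 hy
      exact hC2 X (ht X hX) y hyX) _ hUo ⟨u, by
        rintro ⟨L, h8, h9⟩
        exact h8 (hMV h9)⟩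
    have hDV : ∀ X ∈ D, q γ • X ∈ V := by
      intro X hX
      obtain ⟨X₀, hX₀, h8⟩ := mem_iUnion₂.1 (htc hX)
      obtain ⟨x, hx, hxX⟩ := h8
      have h9 := hγ x (mem_biUnion hX₀ hx)
      by_contra h10
      exact h9 ⟨q γ • X, h10, ic _ _ _ _ _ hxX⟩
    let g : C(SGr σ J j, ℝ) := (ind hV).comp ⟨fun X => q γ • X, continuous_const_smul (q γ)⟩
    have h11 : φ (ind hV) = φ g := hinvφ γ g (ind hV) fun X => rfl
    rw [h11]
    refine mono _ _ fun X => ?_
    by_cases hX : X ∈ D
    · rw [ind_mem hD hX]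
      change (1 : ℝ) ≤ ind hV (q γ • X)
      rw [ind_mem hV (hDV X hX)]
    · rw [ind_not hD hX]
      exact ind_nonneg hV _

end geo

end Vale.Agent.P092.H370.O
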