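import Vale.Agent.P092.H766.Z1
import Vale.Agent.P092.H370.O.NoInv

/-!
P092, TEAM P, [CLO-R3] (helper370): helper766's `Z1` for a group `S` which acts on the singular
subspaces of a form of any kind (`Fo`).
-/

set_option linter.all false

open scoped InnerProductSpace
open Set Filter Topology Module ContinuousLinearMap

namespace Vale.Agent.P092.H370.O

open Vale.Agent.P092.H303 (FormGroup)
open Vale.Agent.P092.H370.Po
open Vale.Agent.P092.H370.Fo (Fo EU)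
open Vale.Agent.P092.H714.Cl
open Vale.Agent.P092.H702.TG (YS IS CS)
open Vale.Agent.P092.RC (Cm Moore PicX)
open Vale.Agent.P092.H631.P0 (ul_of_sp)
open Vale.Agent.P092.H232 (Nin)
open Vale.Agent.P092.H437.P2 (GG' GG'_eq lc_dense)
open Vale.Agent.P092.H766.Z (toC toC_apply)

section pic

variable {S E Γ K : Type} [Group S] [Group E] [TopologicalSpace E] [Group Γ]
  [NormedAddCommGroup K] [InnerProductSpace ℂ K] [CompleteSpace K] {ι : S →* E}
  {π : E →* (K →L[ℂ] K)} {lam : Γ →* (K →L[ℂ] K)} {W : Set (K →L[ℂ] K)} {Ω : K}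

theorem zo_of (hp : PicX π lam W Ω) {T : Set S} (hM : Moore (ι '' T)) (P : K →L[ℂ] K)
    (h1 : adjoint P = P) (h2 : P * P = P) (h3 : ∀ γ, P * lam γ = lam γ * P)
    (h4 : ∀ w ∈ W, P * w = w * P) (h5 : ∀ g ∈ T, P * π (ι g) = π (ι g) * P) : P = 0 ∨ P = 1 := by
  obtain ⟨z, hz⟩ := hp.erg _ hM P h4 h3 (by
    rintro _ ⟨g, hg, rfl⟩
    exact h5 g hg)
  by_cases hz0 : z = 0
  · left
    rw [hz, hz0, zero_smul]
  · right
    rw [hz] at h2
    have h6 : (z * z) • (1 : K →L[ℂ] K) = z • (1 : K →L[ℂ] K) := by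
      rw [smul_mul_smul_comm, one_mul] at h2
      exact h2
    rw [mul_smul] at h6
    rw [hz]
    exact smul_right_injective _ hz0 h6

end pic

section form

variable {n : Type} [Fintype n] [DecidableEq n] {k : Type} [NontriviallyNormedField k]
  [ProperSpace k] {σ : k →+* k} {ε : k} {J : Matrix n n k} {S : Type} [Group S]
  [∀ j, MulAction S (SGr σ J j)]

/-- the group acts through the isometry group, its range contains the Eichler elements -/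
structure Rg (ε : k) (φ : S →* FormGroup σ J) : Prop where
  act : ∀ (g : S) (j : ℕ) (X : SGr σ J j), g • X = φ g • X
  eu : ∀ g : FormGroup σ J, g.1 ∈ EU σ ε J → ∃ s, φ s = g

omit [ProperSpace k] in
theorem Rg.inc {φ : S →* FormGroup σ J} (h : Rg ε φ) (g : S) {i j : ℕ} {x : SGr σ J i}
    {y : SGr σ J j} (hxy : Inc x y) : Inc (g • x) (g • y) := by
  rw [h.act, h.act]
  exact (inc_smul (φ g)).2 hxy

omit [ProperSpace k] in
theorem Rg.one {φ : S →* FormGroup σ J} (h : Rg ε φ) {P : FormGroup σ J → Prop}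
    (hP : ∃ g : FormGroup σ J, g.1 ∈ EU σ ε J ∧ P g) : ∃ s : S, P (φ s) := by
  obtain ⟨g, hg, h1⟩ := hP
  obtain ⟨s, rfl⟩ := h.eu g hg
  exact ⟨s, h1⟩

/-- The base of a leg, in the letters `SGr σ J j`. -/
structure Bs (σ : k →+* k) (J : Matrix n n k) {S : Type} [Group S]
    [∀ j, MulAction S (SGr σ J j)] {E Γ K : Type} [Group E] [TopologicalSpace E] [Group Γ] [NormedAddCommGroup K]
    [InnerProductSpace ℂ K] [CompleteSpace K] (ι : S →* E) (π : E →* (K →L[ℂ] K))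
    (lam : Γ →* (K →L[ℂ] K)) (W : Set (K →L[ℂ] K)) (Ω : K) (q : Γ → S) : Prop where
  sur : Function.Surjective ι
  pic : PicX π lam W Ω
  am : ∀ γ γ' (j : ℕ) (X : SGr σ J j), q (γ * γ') • X = q γ • q γ' • X
  prox : ∀ (z : SGr σ J 1) (D : Set (SGr σ J 1)), IsCompact D → (∀ y ∈ D, ¬ Col y z) →
    ∀ U : Set (SGr σ J 1), IsOpen U → U.Nonempty → ∃ γ, ∀ y ∈ D, q γ • y ∈ U
  mo : ∀ (D : SGr σ J 2) (T : Set S),
    (∀ g : S, (∀ (j : ℕ) (A : SGr σ J j), Col A D → g • A = A) → g ∈ T) → Moore (ι '' T)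
  ic : ∀ (g : S) (i j : ℕ) (x : SGr σ J i) (y : SGr σ J j), Inc x y → Inc (g • x) (g • y)

/-- The calculi of all singular subspaces. -/
structure Cals {Γ K : Type} [Group Γ] [NormedAddCommGroup K] [InnerProductSpace ℂ K]
    [CompleteSpace K] [Fact (Continuous σ)] (i₀ r : ℕ) (π' : S →* (K →L[ℂ] K))
    (lam : Γ →* (K →L[ℂ] K)) (W : Set (K →L[ℂ] K)) (q : Γ → S)
    (G : ∀ j, SGr σ J j → (C(SGr σ J j, ℂ) →⋆ₐ[ℂ] (K →L[ℂ] K))) : Prop where
  com : ∀ i j, 1 ≤ i → i ≤ j → j ≤ r → ∀ (X : SGr σ J i) (X' : SGr σ J j), Inc X X' →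
    ∀ f f', Commute (G i X f) (G j X' f')
  inc : ∀ i j, 1 ≤ i → i ≤ j → j ≤ r → ∀ (X : SGr σ J i) (X' : SGr σ J j), Inc X X' →
    ∀ u h, Nin (fun x y => Inc x y) u h → G i X u * G j X' h = 0
  cen : ∀ j, 1 ≤ j → j ≤ r → ∀ (X : SGr σ J j) (T : K →L[ℂ] K),
    (∀ (x : SGr σ J i₀) f, Inc x X → T * G i₀ x f = G i₀ x f * T) →
      ∀ f, T * G j X f = G j X f * T
  cov : ∀ j, 1 ≤ j → j ≤ r → ∀ (X : SGr σ J j) γ (f f' : C(SGr σ J j, ℂ)),
    (∀ Y, f' (q γ • Y) = f Y) → lam γ * G j X f * lam γ⁻¹ = G j X f'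
  pcov : ∀ j, 1 ≤ j → j ≤ r → ∀ (X : SGr σ J j) g f, π' g * G j X f * π' g⁻¹ = G j (g • X) f
  cm : ∀ j, 1 ≤ j → j ≤ r → ∀ (X : SGr σ J j) f, Cm W (G j X f)

variable {E Γ K : Type} [Group E] [TopologicalSpace E] [Group Γ] [NormedAddCommGroup K]
  [InnerProductSpace ℂ K] [CompleteSpace K] {ι : S →* E} {π : E →* (K →L[ℂ] K)}
  {lam : Γ →* (K →L[ℂ] K)} {W : Set (K →L[ℂ] K)} {Ω : K} {q : Γ → S}

theorem Bs.q1 (h : Bs σ J ι π lam W Ω q) {j : ℕ} (X : SGr σ J j) : q 1 • X = X := by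
  have h1 := h.am 1 1 j X
  rw [mul_one] at h1
  exact (smul_left_cancel _ h1).symm

theorem Bs.qinv (h : Bs σ J ι π lam W Ω q) (γ : Γ) {j : ℕ} (X : SGr σ J j) :
    q γ⁻¹ • X = (q γ)⁻¹ • X := by
  rw [eq_inv_smul_iff, ← h.am, mul_inv_cancel, h.q1]

/-- the action of `Γ` on the singular subspaces -/
@[reducible] def Bs.act (h : Bs σ J ι π lam W Ω q) (r e : ℕ) : MulAction Γ (YS σ J r e) where
  smul γ X := q γ • (show SGr σ J (r + 1 - e) from X)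
  one_smul X := h.q1 (j := r + 1 - e) X
  mul_smul γ γ' X := h.am γ γ' (r + 1 - e) X

theorem Bs.ccs [∀ j, ContinuousConstSMul S (SGr σ J j)] (h : Bs σ J ι π lam W Ω q) (r e : ℕ) :
    @ContinuousConstSMul Γ (YS σ J r e) _ (h.act r e).toSMul :=
  letI := h.act r e
  ⟨fun γ => continuous_const_smul (T := SGr σ J (r + 1 - e)) (q γ)⟩

/-- the zero-one law for tuples of singular subspaces perpendicular to `D` -/
theorem Bs.zo (h : Bs σ J ι π lam W Ω q) (D : SGr σ J 2)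
    (P : K →L[ℂ] K) (h1 : adjoint P = P) (h2 : P * P = P) (h3 : ∀ γ, P * lam γ = lam γ * P)
    (h4 : ∀ w ∈ W, P * w = w * P)
    (h5 : ∀ g : S, (∀ (j : ℕ) (A : SGr σ J j), Col A D → g • A = A) →
      P * π (ι g) = π (ι g) * P) : P = 0 ∨ P = 1 :=
  zo_of h.pic (T := {g | ∀ (j : ℕ) (A : SGr σ J j), Col A D → g • A = A})
    (h.mo D _ fun g hg => hg) P h1 h2 h3 h4 fun g hg => h5 g hg

/-- a singular plane in a common singular subspace with `X` -/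
theorem exists_D (hF : Fo σ ε J) {r : ℕ} (hW : WI σ J r) (hr : 2 ≤ r) {j : ℕ} (hj : 1 ≤ j)
    (X : SGr σ J j) : ∃ D : SGr σ J 2, ∀ (i : ℕ) (A : SGr σ J i), Inc A X → Col A D := by
  rcases Nat.lt_or_ge j 2 with h | h
  · obtain ⟨⟨Y, hY, hd⟩, -⟩ := hW
    obtain ⟨D, hD⟩ := H370.Fo.exists_inc_ge hF (i := j) (l := 2) (j := r) h.le hr X
      (SGr.mk' Y hY hd)
    exact ⟨D, fun i A hA a ha b hb => D.sing a (hD (hA ha)) b hb⟩
  · obtain ⟨D, hD⟩ := exists_inc_le (i := 2) h X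
    exact ⟨D, fun i A hA a ha b hb => X.sing a (hA ha) b (hD hb)⟩

theorem exists_vec {j : ℕ} (hj : 1 ≤ j) (X : SGr σ J j) : ∃ u ∈ X.S, u ≠ 0 := by
  refine Submodule.exists_mem_ne_zero_of_ne_bot fun h0 => ?_
  have := X.dim
  rw [h0, finrank_bot] at this
  omega

theorem Bs.noinv [IsUltrametricDist k] [Fact (Continuous σ)]
    [∀ j, ContinuousConstSMul S (SGr σ J j)] (h : Bs σ J ι π lam W Ω q)
    (hF : Fo σ ε J) (x₀ : SGr σ J 1) {j : ℕ} (hj : 1 ≤ j)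
    (G : C(SGr σ J j, ℂ) →⋆ₐ[ℂ] (K →L[ℂ] K)) (h3 : ∀ g f, π (ι g) * G f = G f * π (ι g))
    (h4 : ∀ w ∈ W, ∀ f, w * G f = G f * w)
    (h5 : ∀ γ (f f' : C(SGr σ J j, ℂ)), (∀ X, f' (q γ • X) = f X) →
      lam γ * G f * lam γ⁻¹ = G f') : False := by
  haveI : TotallyDisconnectedSpace (SGr σ J j) := H437.P2.tdS
  haveI : TotallyDisconnectedSpace (SGr σ J 1) := H437.P2.tdS
  refine O.noinv hF x₀ h.pic h.ic h.prox hj G (fun g f => ?_) h4 h5
  obtain ⟨g, rfl⟩ := h.sur g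
  exact h3 g f

end form

end Vale.Agent.P092.H370.O
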