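import Vale.Agent.P092.H766.Z2
import Vale.Agent.P092.H370.O.Z1
import Vale.Agent.P092.H541.O.TG

/-!
P092, TEAM P, [CLO-R3] (helper370): helper766's `Z2` for a group `S` which acts on the singular
subspaces of a form of any kind (`Fo`): from the point letters to the calculi of all singular
subspaces.
-/

set_option linter.all false

open scoped InnerProductSpace
open Set Filter Topology Module ContinuousLinearMap

namespace Vale.Agent.P092.H370.O

open Vale.Agent.P092.H303 (FormGroup)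
open Vale.Agent.P092.H370.Po
open Vale.Agent.P092.H370.Fo (Fo EU)
open Vale.Agent.P092.H714.Cl
open Vale.Agent.P092.H702.TG (YS IS CS)
open Vale.Agent.P092.H702.SG (SS RS)
open Vale.Agent.P092.RC (Cm Moore PicX)
open Vale.Agent.P092.H631.P0 (ul_of_sp)
open Vale.Agent.P092.H232 (Nin)
open Vale.Agent.P092.H437.P2 (GG' GG'_eq lc_dense)
open Vale.Agent.P092.H766 (P2.PkData)
open Vale.Agent.P092.H766.Z (toC toC_apply)

variable {n : Type} [Fintype n] [DecidableEq n] {k : Type} [NontriviallyNormedField k]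
  [ProperSpace k] {σ : k →+* k} {ε : k} {J : Matrix n n k} {S : Type} [Group S]
  [∀ j, MulAction S (SGr σ J j)]
  {E Γ K : Type} [Group E] [TopologicalSpace E] [Group Γ] [NormedAddCommGroup K]
  [InnerProductSpace ℂ K] [CompleteSpace K] {ι : S →* E} {π : E →* (K →L[ℂ] K)}
  {lam : Γ →* (K →L[ℂ] K)} {W : Set (K →L[ℂ] K)} {Ω : K} {q : Γ → S}

/-- Letters `U x` with values in the singular subspaces of dimension `i`, `x` of dimension `a`. -/
structure Ltr [Fact (Continuous σ)] (ι : S →* E) (π : E →* (K →L[ℂ] K))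
    (lam : Γ →* (K →L[ℂ] K)) (W : Set (K →L[ℂ] K)) (q : Γ → S) {a i : ℕ}
    (U : SGr σ J a → (C(SGr σ J i, ℂ) →ₗ[ℂ] (K →L[ℂ] K))) : Prop where
  ul : ∀ v, SP.UL (U v) 1
  cm : ∀ v f, Cm W (U v f)
  cov : ∀ γ v (f f' : C(SGr σ J i, ℂ)), (∀ y, f' (q γ • y) = f y) →
    lam γ * U v f * lam γ⁻¹ = U v f'
  pcov : ∀ g v f, π (ι g) * U v f * π (ι g)⁻¹ = U (g • v) f

variable [Fact (Continuous σ)] [IsUltrametricDist k] [∀ j, ContinuousConstSMul S (SGr σ J j)]

theorem comp_of {h : Bs σ J ι π lam W Ω q} {j : ℕ} {γ : Γ} {f f' : C(SGr σ J j, ℂ)}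
    (hff : ∀ Y, f' (q γ • Y) = f Y) (Y : SGr σ J j) : f' Y = f (q γ⁻¹ • Y) := by
  rw [h.qinv, ← hff, smul_inv_smul]

/-- **[P2-0], straight**: the calculi of all singular subspaces. -/
theorem out_straight (hb : Bs σ J ι π lam W Ω q) {φ : S →* FormGroup σ J} (hφ : Rg ε φ)
    (hF : Fo σ ε J) {r : ℕ} (hr : 2 ≤ r) (hW : WI σ J r) {i : ℕ} (hi : i = r + 1 - r)
    {U : SGr σ J i → (C(SGr σ J i, ℂ) →ₗ[ℂ] (K →L[ℂ] K))} (hU : Ltr ι π lam W q U)
    (w0 : H766.Z.W0s r U) :
    ∃ G : ∀ j, SGr σ J j → (C(SGr σ J j, ℂ) →⋆ₐ[ℂ] (K →L[ℂ] K)),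
      (∀ x f, G i x f = U x f) ∧ Cals i r (π.comp ι) lam W q G := by
  subst hi
  letI actG : ∀ e, MulAction Γ (YS σ J r e) := fun e => hb.act r e
  letI actS : ∀ e, MulAction S (SS σ J r e) := fun e =>
    inferInstanceAs (MulAction S (SGr σ J (r + 1 - e)))
  haveI : ∀ e, ContinuousConstSMul Γ (YS σ J r e) := fun e => hb.ccs r e
  obtain ⟨x₀⟩ : Nonempty (SGr σ J 1) := by
    obtain ⟨⟨Y, hY, hd⟩, -⟩ := hW
    obtain ⟨x, -⟩ := exists_inc_le (show 1 ≤ r by omega) (SGr.mk' Y hY hd)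
    exact ⟨x⟩
  have key : ∀ {e : ℕ} (h1 : 1 ≤ e) (h2 : e ≤ r) (X : SS σ J r e) (P : K →L[ℂ] K),
      adjoint P = P → P * P = P → (∀ γ, P * lam γ = lam γ * P) → (∀ w ∈ W, P * w = w * P) →
      (∀ g : S, (∀ (j : ℕ) (A : SGr σ J j),
        Inc A (show SGr σ J (r + 1 - e) from X) → g • A = A) →
        P * π (ι g) = π (ι g) * P) → P = 0 ∨ P = 1 := by
    intro e h1 h2 X P p1 p2 p3 p4 p5
    obtain ⟨D, hD⟩ := exists_D hF hW hr (j := r + 1 - e) (by omega) X
    refine hb.zo D P p1 p2 p3 p4 fun g hg => p5 g ?_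
    intro j A hA
    exact hg j A (hD j A hA)
  have D : H766.P2.PkData r (IS (σ := σ) (J := J)) (CS (σ := σ) (J := J) r r)
      (RS (σ := σ) (J := J)) Γ S lam (π.comp ι) W
      (fun (_ : Unit) (x : SS σ J r r) => toC (U x) (hU.ul x)) := by
    refine
      { hN := by omega
        tgeo := H702.TG.tgeoS r
        pgeo := H541.O.pgeoSF hF hW
        sgeo := H541.O.sgeoSF' hF hW S φ (fun h e X => hφ.act h (r + 1 - e) X) hφ.eu
        gI := fun γ i j L L' h => hb.ic (q γ) (r + 1 - j) (r + 1 - i) L' L h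
        uG := hb.pic.adjL
        uπ := fun g => by
          change adjoint (π (ι g)) = π (ι g⁻¹)
          rw [hb.pic.adjP, map_inv ι g]
        sW := hb.pic.Wadj
        one := fun _ x => ?_
        str := fun _ x f => ?_
        covG := fun γ _ x f => ?_
        covπ := fun g _ x f => ?_
        covW := fun w hw _ x f => (hU.cm x f w hw).symm
        zo := ?_
        zo2 := ?_
        noinv := ?_
        w0 := ?_ }
    · change U x 1 = 1
      rw [(hU.ul x).one, Complex.ofReal_one, one_smul]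
    · exact ((hU.ul x).star f).trans (star_eq_adjoint _)
    · refine hU.cov γ x f _ fun y => ?_
      change f (q γ⁻¹ • q γ • (show SGr σ J (r + 1 - r) from y)) = f y
      rw [hb.qinv, inv_smul_smul]
    · change π (ι g) * U x f * π (ι g⁻¹) = U (g • x) f
      rw [map_inv ι g]
      exact hU.pcov g x f
    · intro e h1 h2 X P p1 p2 p3 p4 p5
      exact key h1 h2 X P p1 p2 p3 p4 fun g hg => p5 g (hg (r + 1 - e) X (Inc.refl (j := r + 1 - e) X))
    · rintro e h1 h2 A B hAB ⟨X, hA, hB⟩ P p1 p2 p3 p4 p5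
      exact key h1 h2.le X P p1 p2 p3 p4 fun g hg =>
        p5 g (hg (r + 1 - (e + 1)) A hA) (hg (r + 1 - (e + 1)) B hB)
    · intro e h1 h2 G g1 g2 g3
      refine hb.noinv (j := r + 1 - e) hF x₀ (by omega) G g1 g2 fun γ f f' hff => ?_
      have e1 := g3 γ f
      refine e1.trans (congrArg G ?_)
      ext Y
      exact (comp_of (h := hb) (j := r + 1 - e) hff Y).symm
    · intro c T hT a x b x' hx hx' u h hop
      refine w0 c T ?_ x x' hx hx' u h hop
      refine Submonoid.closure_mono ?_ hT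
      rintro _ ⟨_, y, f, hy, rfl⟩
      exact ⟨y, f, hy, rfl⟩
  have hne : ∀ j, SS σ J r j → Nonempty (YS σ J r j) := fun j X =>
    H702.PG.nonempty_of_SS hW hW j X
  obtain ⟨G, hG⟩ := H766.P2.pkStmt K r (YS σ J r) _ _ (SS σ J r) _ Γ S lam (π.comp ι) W
    Unit _ hne D
  refine ⟨GG' (σ := σ) (J := J) hW G, ?_, ?_⟩
  · intro x f
    rw [GG'_eq hW G (by omega)]
    exact hG.top () x f
  · refine ⟨?_, ?_, ?_, ?_, ?_, ?_⟩
    · intro i j h1 h2 h3
      obtain ⟨e, rfl, he⟩ : ∃ e, i = r + 1 - e ∧ e ≤ r := ⟨r + 1 - i, by omega, by omega⟩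
      obtain ⟨e', rfl, he'⟩ : ∃ e', j = r + 1 - e' ∧ 1 ≤ e' := ⟨r + 1 - j, by omega, by omega⟩
      intro X X' h f f'
      rw [GG'_eq hW G (by omega), GG'_eq hW G (by omega)]
      exact (hG.com e' e he' (by omega) he X' X h f' f).symm
    · intro i j h1 h2 h3
      obtain ⟨e, rfl, he⟩ : ∃ e, i = r + 1 - e ∧ e ≤ r := ⟨r + 1 - i, by omega, by omega⟩
      obtain ⟨e', rfl, he'⟩ : ∃ e', j = r + 1 - e' ∧ 1 ≤ e' := ⟨r + 1 - j, by omega, by omega⟩
      intro X X' h u f hn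
      rw [GG'_eq hW G (by omega), GG'_eq hW G (by omega)]
      have h4 := (hG.com e' e he' (by omega) he X' X h f u).symm
      have h5 := hG.inc e' e he' (by omega) he X' X h f u fun x hx y hy hxy => hn y hy x hx hxy
      exact h4.eq.trans h5
    · intro j h1 h2
      obtain ⟨e, rfl, he1, he2⟩ : ∃ e, j = r + 1 - e ∧ 1 ≤ e ∧ e ≤ r :=
        ⟨r + 1 - j, by omega, by omega, by omega⟩
      intro X T hT f
      rw [GG'_eq hW G (by omega)]
      refine hG.cen e he1 he2 X T (fun a x f' hx => ?_) f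
      have h6 := hT x f' hx
      rw [GG'_eq hW G (by omega)] at h6
      rw [← hG.top a x f']
      exact h6
    · intro j h1 h2
      obtain ⟨e, rfl, he1, he2⟩ : ∃ e, j = r + 1 - e ∧ 1 ≤ e ∧ e ≤ r :=
        ⟨r + 1 - j, by omega, by omega, by omega⟩
      intro X γ f f' hff
      rw [GG'_eq hW G (by omega)]
      refine (hG.covG e he1 he2 X γ f).trans (congrArg (G e X) ?_)
      ext Y
      exact (comp_of (h := hb) (j := r + 1 - e) hff Y).symm
    · intro j h1 h2
      obtain ⟨e, rfl, he1, he2⟩ : ∃ e, j = r + 1 - e ∧ 1 ≤ e ∧ e ≤ r :=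
        ⟨r + 1 - j, by omega, by omega, by omega⟩
      intro X g f
      rw [GG'_eq hW G (by omega)]
      exact hG.covπ e he1 he2 X g f
    · intro j h1 h2
      obtain ⟨e, rfl, he1, he2⟩ : ∃ e, j = r + 1 - e ∧ 1 ≤ e ∧ e ≤ r :=
        ⟨r + 1 - j, by omega, by omega, by omega⟩
      intro X f w hw
      rw [GG'_eq hW G (by omega)]
      exact (hG.covW e he1 he2 X w hw f).symm

end Vale.Agent.P092.H370.O
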