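import Vale.Agent.P092.H766.Z6
import Vale.Agent.P092.H370.O.Z5
import Vale.Agent.P092.H437.O.Key0

/-!
P092, TEAM P, [CLO-R3] (helper370): helper766's `Z6` for a group `S` which acts on the singular
subspaces of a form of any kind (`Fo`): the straight leg of Witt index `r ≥ 2` in the letters of
`CL/Defs` (`S` any group, `P = SGr σ J 1`, `M = SGr σ J r`).
-/

set_option linter.all false

open scoped InnerProductSpace
open Set Filter Topology Module ContinuousLinearMap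

namespace Vale.Agent.P092.H370.O

open Vale.Agent.P092.H303 (FormGroup)
open Vale.Agent.P092.H370.Po hiding sing_sup_span exists_prod exists_inc_ge exists_above
  exists_extend exists_iso_prod trans_SGr con con2 trans_flag trans_pair_col
open Vale.Agent.P092.H370.Fo (Fo Wf EU ort_symm EP ei vecMul_ei ei_mem_EU EU_le exists_prod)
open Vale.Agent.P092.H714.Cl
open Vale.Agent.P092.H714.Sg (Fm)
open Vale.Agent.P092.RC (Cm Moore PicX)
open Vale.Agent.P092.H232 (Nin)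
open Vale.Agent.P092.CL (Lt Geo PB UFam HFam LegP LegS act)
open Vale.Agent.P092.H437.P2 (CalP)
open Vale.Agent.P092.H437.O (GDat)

section mo

variable {S P M V₁ V₂ : Type} [MeasurableSpace V₁]
  [MeasurableSpace V₂] [Group S] [TopologicalSpace S] [MulAction S P] [TopologicalSpace P]
  [CompactSpace P] [ContinuousConstSMul S P] [MulAction S M]
  [TopologicalSpace M] [CompactSpace M] [ContinuousConstSMul S M]
  [NormedAddCommGroup V₁] [NormedAddCommGroup V₂]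
  {L : Lt S P M V₁ V₂} {E₀ : Type} [Group E₀] [TopologicalSpace E₀] {ι : S →* E₀}

/-- sets on which a continuous function is unbounded are Moore sets -/
theorem moore_of (hG : Geo L) (hA : P092.CL.Adm L ι) {f : S → ℝ} (hf : Continuous f) {T : Set S}
    (hT : ∀ C : ℝ, ∃ g ∈ T, C ≤ f g) : Moore (ι '' T) := by
  refine hA.moore T fun C => ?_
  by_contra hcon
  push Not at hcon
  obtain ⟨B, hB⟩ := (hG.nm_cpt C).bddAbove_image hf.continuousOn
  obtain ⟨g, hg, h1⟩ := hT (B + 1)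
  have h2 : f g ≤ B := hB ⟨g, (hcon g hg).le, rfl⟩
  linarith

end mo

section alg

variable {n : Type} [Fintype n] [DecidableEq n] {k : Type} [Field k]
  {σ : k →+* k} {ε : k} {J : Matrix n n k}

/-- a basis of a singular plane and a dual vector -/
theorem exists_dualD (hF : Fo σ ε J) (D : SGr σ J 2) : ∃ u v x : n → k, u ∈ D.S ∧ v ∈ D.S ∧
    v ≠ 0 ∧ hf σ J x u = 1 ∧ hf σ J x v = 0 := by
  obtain ⟨b⟩ : Nonempty (Basis (Fin 2) k D.S) := ⟨finBasisOfFinrankEq k D.S D.dim⟩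
  obtain ⟨x, hx⟩ := exists_prod hF D.S (b.coord 0)
  have h0 : hf σ J (b 0).1 x = 1 := by
    rw [hx, b.coord_apply, b.repr_self, Finsupp.single_eq_same]
  have h1 : hf σ J (b 1).1 x = 0 := by
    rw [hx, b.coord_apply, b.repr_self, Finsupp.single_apply, if_neg (by decide)]
  refine ⟨(b 0).1, (b 1).1, ε • x, (b 0).2, (b 1).2, fun h => b.ne_zero 1 (Subtype.ext h), ?_, ?_⟩
  · rw [hf_smul_left, hF.fm.herm (b 0).1 x, h0, map_one, mul_one, hF.fm.eps]
  · rw [hf_smul_left, hF.fm.symm0 h1, mul_zero]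

/-- the long Eichler elements of a singular plane -/
theorem exists_long (hF : Fo σ ε J) (D : SGr σ J 2) : ∃ x v : n → k, v ≠ 0 ∧ ∀ t : k,
    ∃ g : FormGroup σ J, g.1 ∈ EU σ ε J ∧ Matrix.vecMul x g.1.1 = x + t • v ∧
      ∀ (j : ℕ) (A : SGr σ J j), Col A D → g • A = A := by
  obtain ⟨u, v, x, hu, hv, hv0, h1, h2⟩ := exists_dualD hF D
  refine ⟨x, v, hv0, fun t => ?_⟩
  have hp : EP σ ε J u (t • v) 0 :=
    { uu := D.sing u hu u hu
      vu := by rw [hf_smul_left, D.sing v hv u hu, mul_zero]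
      vv := by
        rw [hf_smul_left, hf_smul_right, D.sing v hv v hv, map_zero]
        ring }
  refine ⟨⟨ei σ ε J u (t • v) 0, EU_le hF.fm (ei_mem_EU hp)⟩, ei_mem_EU hp, ?_,
    fun j A hA => smul_eq_of_fix fun y hy => ?_⟩
  · change Matrix.vecMul x (ei σ ε J u (t • v) 0).1 = _
    rw [vecMul_ei hF.fm hp, h1, hf_smul_right, h2]
    simp
  · change Matrix.vecMul y (ei σ ε J u (t • v) 0).1 = y
    rw [vecMul_ei hF.fm hp, hf_smul_right, hA y hy u hu, hA y hy v hv]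
    simp

end alg

variable {n : Type} [Fintype n] [DecidableEq n] {k : Type} [NontriviallyNormedField k]
  [ProperSpace k] {σ : k →+* k} {ε : k} {J : Matrix n n k} [Fact (Continuous σ)]
  {S : Type} [Group S] [TopologicalSpace S] [∀ j, MulAction S (SGr σ J j)]
  [∀ j, ContinuousConstSMul S (SGr σ J j)] {φ : S →* FormGroup σ J}
  {r : ℕ} {V₁ V₂ : Type} [MeasurableSpace V₁] [MeasurableSpace V₂] [NormedAddCommGroup V₁]
  [NormedAddCommGroup V₂] {L : Lt S (SGr σ J 1) (SGr σ J r) V₁ V₂}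
  {E Γ K : Type} [Group E] [TopologicalSpace E] [Group Γ] [NormedAddCommGroup K]
  [InnerProductSpace ℂ K] [CompleteSpace K] {𝒰 : Ultrafilter ℕ} {ι : S →* E}
  {π : E →* (K →L[ℂ] K)} {lam : Γ →* (K →L[ℂ] K)} {W : Set (K →L[ℂ] K)} {Ω : K}
  {m : Set Γ → (K →L[ℂ] K)} {q : Γ → S}

/-- the fixator of the singular subspaces perpendicular to a singular plane is a Moore set -/
theorem moore_D (hG : Geo L) (hA : P092.CL.Adm L ι) (hφ : Rg ε φ) (hφc : Continuous φ)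
    (hF : Fo σ ε J) (D : SGr σ J 2) (T : Set S)
    (hT : ∀ g : S, (∀ (j : ℕ) (A : SGr σ J j), Col A D → g • A = A) → g ∈ T) :
    Moore (ι '' T) := by
  obtain ⟨x, v, hv, hx⟩ := exists_long hF D
  obtain ⟨i, hi⟩ := Function.ne_iff.1 hv
  have hi0 : 0 < ‖v i‖ := norm_pos_iff.2 hi
  have hc : Continuous fun g : S => ‖(Matrix.vecMul x (φ g).1.1) i‖ := by
    have h0 : Continuous fun g : FormGroup σ J => g.1.1 :=
      continuous_subtype_val.comp continuous_subtype_val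
    have h1 : Continuous fun g : S => (φ g).1.1 := h0.comp hφc
    exact ((continuous_apply i).comp (Continuous.matrix_vecMul continuous_const h1)).norm
  refine moore_of hG hA hc fun C => ?_
  obtain ⟨t, ht⟩ := NormedField.exists_lt_norm k ((C + ‖x i‖) / ‖v i‖)
  obtain ⟨g, hg, h1, h2⟩ := hx t
  obtain ⟨s, rfl⟩ := hφ.eu g hg
  refine ⟨s, hT s fun j A hA => (hφ.act s j A).trans (h2 j A hA), ?_⟩
  rw [h1]
  have h3 : C + ‖x i‖ < ‖t‖ * ‖v i‖ := (div_lt_iff₀ hi0).1 ht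
  have h4 : ‖t * v i‖ ≤ ‖(x + t • v) i‖ + ‖x i‖ := by
    have e : t * v i = (x + t • v) i - x i := by simp
    rw [e]
    exact norm_sub_le _ _
  rw [norm_mul] at h4
  linarith

omit [ProperSpace k] [Fact (Continuous σ)] [TopologicalSpace S]
  [∀ j, ContinuousConstSMul S (SGr σ J j)] in
/-- an element which fixes all points fixes all subspaces -/
theorem fix_all (hφ : Rg ε φ) {z : S} (h : ∀ x : SGr σ J 1, z • x = x) {j : ℕ} (X : SGr σ J j) :
    z • X = X := by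
  refine (SGr.eq_of_le (X := X) (Y := z • X) fun v hv => ?_).symm
  by_cases h0 : v = 0
  · rw [h0]; exact zero_mem _
  · have hle : Submodule.span k {v} ≤ X.S := (Submodule.span_singleton_le_iff_mem _ _).2 hv
    set x : SGr σ J 1 := SGr.mk' (Submodule.span k {v}) (X.sing.mono hle)
      (finrank_span_singleton h0) with hx
    have h1 : Inc x X := hle
    have h2 : Inc (z • x) (z • X) := hφ.inc z h1
    rw [h x] at h2
    exact h2 (Submodule.mem_span_singleton_self v)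

theorem act_mul_of (hφ : Rg ε φ) (hG : Geo L) (hB : PB L 𝒰 ι π lam W Ω m q) (γ γ' : Γ) {j : ℕ}
    (X : SGr σ J j) : q (γ * γ') • X = q γ • q γ' • X := by
  obtain ⟨z, hz, e⟩ := hB.ph γ γ'
  rw [e, mul_smul, mul_smul, fix_all hφ (hG.z_P z hz)]

/-- **the base of the rank count from the base record of the leg** -/
theorem bs_of (hφ : Rg ε φ) (hφc : Continuous φ) (hF : Fo σ ε J)
    (hIn : ∀ x l, L.In x l ↔ Inc x l) (hG : Geo L)
    (hB : PB L 𝒰 ι π lam W Ω m q) : Bs σ J ι π lam W Ω q where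
  sur := hB.adm.sur
  pic := hB.pic
  am γ γ' j X := act_mul_of hφ hG hB γ γ' X
  prox z D hD hDz U hU hUn := by
    refine hB.prox1 z D hD (fun y hy l h1 h2 => hDz y hy fun a ha b hb => ?_) U hU hUn
    exact l.sing a ((hIn _ _).1 h1 ha) b ((hIn _ _).1 h2 hb)
  mo D T hT := moore_D hG hB.adm hφ hφc hF D T hT
  ic g i j x y h := hφ.inc g h

theorem act_eq {Y : Type} [TopologicalSpace Y] [MulAction S Y]
    [ContinuousConstSMul S Y] {g : S} {f f' : C(Y, ℂ)}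
    (h : ∀ y, f' (g • y) = f y) : act g f = f' := by
  ext y
  change f (g⁻¹ • y) = f' y
  rw [← h, smul_inv_smul]

theorem ltr_of {a i : ℕ} {b : S} {v0 : SGr σ J a}
    {NA : ℝ → ℝ → Set (SGr σ J i) → Set Γ}
    {U : SGr σ J a → (C(SGr σ J i, ℂ) →ₗ[ℂ] (K →L[ℂ] K))}
    (hU : UFam 𝒰 b v0 ι π lam W m q NA U 1) : Ltr ι π lam W q U where
  ul := hU.ul
  cm := hU.cm
  cov γ v f f' h := by
    rw [← act_eq h]
    exact hU.cov γ v f
  pcov := hU.pcov

variable [IsUltrametricDist k]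

/-- the word lemma for the letters of the points, as a hypothesis on one leg -/
def W0L (L : Lt S (SGr σ J 1) (SGr σ J r) V₁ V₂)
    (U11 : SGr σ J 1 → (C(SGr σ J 1, ℂ) →ₗ[ℂ] (K →L[ℂ] K))) : Prop :=
  ∀ X : SGr σ J r, ∀ T ∈ Submonoid.closure {T : K →L[ℂ] K | ∃ x f, L.In x X ∧ T = U11 x f},
    ∀ x x', L.In x X → L.In x' X → ∀ u h : C(SGr σ J 1, ℂ),
      (∀ y ∈ tsupport u, ∀ y' ∈ tsupport h, ¬ Col y y') → U11 x u * T * U11 x' h = 0

/-- **the calculi of a straight leg** -/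
structure Str (L : Lt S (SGr σ J 1) (SGr σ J r) V₁ V₂) (𝒰 : Ultrafilter ℕ)
    (ι : S →* E) (π : E →* (K →L[ℂ] K)) (lam : Γ →* (K →L[ℂ] K))
    (W : Set (K →L[ℂ] K)) (Ω : K) (m : Set Γ → (K →L[ℂ] K)) (q : Γ → S)
    (G : ∀ j, SGr σ J j → (C(SGr σ J j, ℂ) →⋆ₐ[ℂ] (K →L[ℂ] K))) : Prop where
  bs : Bs σ J ι π lam W Ω q
  cals : Cals 1 r (π.comp ι) lam W q G
  leg : LegS L 𝒰 ι π lam W Ω m q (G 1) (G r)

theorem str_of (hφ : Rg ε φ) (hφc : Continuous φ) (hF : Fo σ ε J) (hW : WI σ J r) (hr : 2 ≤ r)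
    (hIn : ∀ x l, L.In x l ↔ Inc x l) (hG : Geo L)
    {U11 : SGr σ J 1 → (C(SGr σ J 1, ℂ) →ₗ[ℂ] (K →L[ℂ] K))} {p11 : ℝ}
    {U12 : SGr σ J 1 → (C(SGr σ J r, ℂ) →ₗ[ℂ] (K →L[ℂ] K))} {p12 : ℝ}
    {U21 : SGr σ J r → (C(SGr σ J 1, ℂ) →ₗ[ℂ] (K →L[ℂ] K))} {p21 : ℝ}
    {U22 : SGr σ J r → (C(SGr σ J r, ℂ) →ₗ[ℂ] (K →L[ℂ] K))} {p22 : ℝ}
    (h : LegP L 𝒰 ι π lam W Ω m q U11 p11 U12 p12 U21 p21 U22 p22) (h1 : p11 = 1)
    (h2 : p22 = 1) (w0 : W0L L U11) :
    ∃ G : ∀ j, SGr σ J j → (C(SGr σ J j, ℂ) →⋆ₐ[ℂ] (K →L[ℂ] K)),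
      Str L 𝒰 ι π lam W Ω m q G := by
  subst h1 h2
  have hb := bs_of hφ hφc hF hIn hG h.base
  obtain ⟨G, hG1, hC⟩ := out_straight (i := 1) hb hφ hF hr hW (by omega)
    (ltr_of h.u11) (fun X T hT x x' hx hx' u f huf => w0 X T (by
      refine Submonoid.closure_mono ?_ hT
      rintro _ ⟨y, f, hy, rfl⟩
      exact ⟨y, f, (hIn _ _).2 hy, rfl⟩) x x' ((hIn _ _).2 hx) ((hIn _ _).2 hx') u f huf)
  have hGr : ∀ l f, G r l f = U22 l f := fun l f =>
    hC.top_eq hb hφ hF (by omega) hW (h.u22.ul l) (fun x hx f g hn => by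
      rw [hG1]
      exact h.i11 x l ((hIn _ _).2 hx) f g fun a ha c hc hac => hn a ha c hc ((hIn _ _).1 hac)) f
  exact ⟨G, hb, hC, h.base, h.u11.hfam one_ne_zero hG1, h.u22.hfam one_ne_zero hGr,
    fun c l hcl => ⟨fun f g => hC.com 1 r le_rfl (by omega) le_rfl c l ((hIn _ _).1 hcl) f g,
      fun f g hn => hC.inc 1 r le_rfl (by omega) le_rfl c l ((hIn _ _).1 hcl) f g
        fun a ha b hb' hab => hn a ha b hb' ((hIn _ _).2 hab)⟩⟩

theorem Str.gdat {G : ∀ j, SGr σ J j → (C(SGr σ J j, ℂ) →⋆ₐ[ℂ] (K →L[ℂ] K))}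
    (h : Str L 𝒰 ι π lam W Ω m q G) : GDat ι π lam W q r G where
  cm j h1 h2 X f := h.cals.cm j h1 h2 X f
  cov j h1 h2 γ X f := h.cals.cov j h1 h2 X γ f _ fun Y => by
    change f ((q γ)⁻¹ • q γ • Y) = f Y
    rw [inv_smul_smul]
  pcov j h1 h2 g X f := by
    have := h.cals.pcov j h1 h2 X g f
    change π (ι g) * G j X f * π (ι g⁻¹) = G j (g • X) f at this
    rwa [map_inv ι g] at this

end Vale.Agent.P092.H370.O
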